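import Vale.Agent.P050.H868.Defs

/-!
Arcs, subgraphs of tensor powers, averaging over an arc-transitive group.
-/

namespace Vale.Agent.P050.H868

open Finset

open Classical in
/-- the number `e(S, T)` of pairs of adjacent vertices, the first in `S`, the second in `T` -/
noncomputable def pairsIn {U : Type*} (G : SimpleGraph U) (S T : Finset U) : ℕ :=
  ((S ×ˢ T).filter fun p => G.Adj p.1 p.2).card

/-- `G` has at most `n ^ ε e(G) (|S| |T| / n ^ 2) ^ κ` pairs of adjacent vertices in `S × T`, for all
sets `S` and `T` of vertices; `e(G)` is the number of all such pairs, `n` the number of vertices. -/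
def UpperRegular {U : Type*} [Fintype U] (κ ε : ℝ) (G : SimpleGraph U) : Prop :=
  ∀ S T : Finset U, (pairsIn G S T : ℝ) ≤
    (Fintype.card U : ℝ) ^ ε * pairsIn G univ univ *
      ((S.card : ℝ) * T.card / (Fintype.card U : ℝ) ^ 2) ^ κ

open Classical in
/-- number of arcs -/
noncomputable def arcs {U : Type*} [Fintype U] (G : SimpleGraph U) : Finset (U × U) :=
  univ.filter fun p => G.Adj p.1 p.2

theorem mem_arcs {U : Type*} [Fintype U] {G : SimpleGraph U} {p : U × U} :
    p ∈ arcs G ↔ G.Adj p.1 p.2 := by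
  simp [arcs]

open Classical in
/-- the set of homomorphisms -/
noncomputable def homs {V U : Type*} [Fintype V] [Fintype U] (H : SimpleGraph V)
    (G : SimpleGraph U) : Finset (V → U) :=
  univ.filter fun z => ∀ u v, H.Adj u v → G.Adj (z u) (z v)

theorem mem_homs {V U : Type*} [Fintype V] [Fintype U] {H : SimpleGraph V}
    {G : SimpleGraph U} {z : V → U} :
    z ∈ homs H G ↔ ∀ u v, H.Adj u v → G.Adj (z u) (z v) := by
  simp [homs]

theorem card_homs {V U : Type*} [Fintype V] [Fintype U] (H : SimpleGraph V)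
    (G : SimpleGraph U) : Nat.card (H →g G) = (homs H G).card := by
  classical
  rw [← Fintype.card_coe, ← Nat.card_eq_fintype_card]
  refine Nat.card_congr ⟨fun f => ⟨f, mem_homs.2 fun u v h => f.map_adj h⟩,
    fun z => ⟨z.1, fun {u v} h => mem_homs.1 z.2 u v h⟩, fun f => ?_, fun z => ?_⟩
  · ext; rfl
  · rfl

theorem two_mul_card_edgeSet {U : Type*} [Fintype U] (G : SimpleGraph U) :
    2 * Nat.card G.edgeSet = (arcs G).card := by
  classical
  rw [Nat.card_eq_fintype_card, ← SimpleGraph.edgeFinset_card,
    ← SimpleGraph.sum_degrees_eq_twice_card_edges]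
  have h1 : arcs G = (univ.sigma (fun x => G.neighborFinset x)).map
      ⟨fun p : (_ : U) × U => (p.1, p.2), fun a b h => by
        obtain ⟨a1, a2⟩ := a
        obtain ⟨b1, b2⟩ := b
        simp only [Prod.mk.injEq] at h
        obtain ⟨rfl, rfl⟩ := h
        rfl⟩ := by
    ext ⟨x, y⟩
    simp only [mem_arcs, mem_map, mem_sigma, mem_univ, true_and, SimpleGraph.mem_neighborFinset,
      Sigma.exists]
    constructor
    · intro h
      exact ⟨x, y, h, rfl⟩
    · rintro ⟨a, b, h, h'⟩
      obtain ⟨rfl, rfl⟩ := Prod.mk.inj h'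
      exact h
  rw [h1, card_map, card_sigma]
  rfl

theorem edgeDensity_eq_arcs {U : Type*} [Fintype U] (G : SimpleGraph U) :
    edgeDensity G = (arcs G).card / (Fintype.card U : ℝ) ^ 2 := by
  unfold edgeDensity
  rw [← two_mul_card_edgeSet, Nat.card_eq_fintype_card (α := U)]
  push_cast
  ring

theorem homDensity_eq_homs {V U : Type*} [Fintype V] [Fintype U] (H : SimpleGraph V)
    (G : SimpleGraph U) :
    homDensity H G = (homs H G).card / (Fintype.card U : ℝ) ^ Fintype.card V := by
  unfold homDensity
  rw [card_homs, Nat.card_eq_fintype_card, Nat.card_eq_fintype_card]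

/-- `G'` is a subgraph of the `N`-th tensor power of `G` -/
def Sub {U U' : Type} (G : SimpleGraph U) (N : ℕ) (G' : SimpleGraph U') : Prop :=
  ∃ (I : Type) (_ : Fintype I), Fintype.card I = N ∧ ∃ (α : U' → I → U),
    Function.Injective α ∧ ∀ x y, G'.Adj x y → ∀ i, G.Adj (α x i) (α y i)

variable {U U' U'' : Type} [Fintype U] [Fintype U'] [Fintype U'']
  {G : SimpleGraph U} {G' : SimpleGraph U'} {G'' : SimpleGraph U''} {N M : ℕ}

omit [Fintype U] in
theorem Sub.refl (G : SimpleGraph U) : Sub G 1 G :=
  ⟨Unit, inferInstance, by simp, fun x _ => x, fun x y h => congrFun h (), fun _ _ h _ => h⟩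

omit [Fintype U] [Fintype U'] [Fintype U''] in
theorem Sub.trans (h : Sub G N G') (h' : Sub G' M G'') : Sub G (M * N) G'' := by
  obtain ⟨I, _, hI, α, hα, ha⟩ := h
  obtain ⟨J, _, hJ, β, hβ, hb⟩ := h'
  refine ⟨J × I, inferInstance, by rw [Fintype.card_prod, hI, hJ], fun x p => α (β x p.1) p.2,
    fun x y h => ?_, fun x y h p => ha _ _ (hb x y h p.1) p.2⟩
  apply hβ
  funext j
  apply hα
  funext i
  exact congrFun h (j, i)

theorem Sub.card_le (h : Sub G N G') : Fintype.card U' ≤ Fintype.card U ^ N := by
  classical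
  obtain ⟨I, _, hI, α, hα, ha⟩ := h
  rw [← hI, ← Fintype.card_fun]
  exact Fintype.card_le_of_injective α hα

theorem Sub.arcs_le (h : Sub G N G') : (arcs G').card ≤ (arcs G).card ^ N := by
  classical
  obtain ⟨I, _, hI, α, hα, ha⟩ := h
  rw [← hI, ← Fintype.card_coe (arcs G), ← Fintype.card_fun, ← Fintype.card_coe (arcs G')]
  refine Fintype.card_le_of_injective
    (fun p i => ⟨(α p.1.1 i, α p.1.2 i), mem_arcs.2 (ha _ _ (mem_arcs.1 p.2) i)⟩) ?_
  intro p q h
  have h1 : ∀ i, (α p.1.1 i, α p.1.2 i) = (α q.1.1 i, α q.1.2 i) := fun i =>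
    congrArg Subtype.val (congrFun h i)
  apply Subtype.ext
  apply Prod.ext
  · apply hα
    funext i
    exact congrArg Prod.fst (h1 i)
  · apply hα
    funext i
    exact congrArg Prod.snd (h1 i)

variable {V : Type} [Fintype V] {H : SimpleGraph V}

theorem Sub.homs_le (h : Sub G N G') : (homs H G').card ≤ (homs H G).card ^ N := by
  classical
  obtain ⟨I, _, hI, α, hα, ha⟩ := h
  rw [← hI, ← Fintype.card_coe (homs H G), ← Fintype.card_fun, ← Fintype.card_coe (homs H G')]
  refine Fintype.card_le_of_injective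
    (fun z i => ⟨fun v => α (z.1 v) i, mem_homs.2 fun u v h =>
      ha _ _ (mem_homs.1 z.2 u v h) i⟩) ?_
  intro z w h
  apply Subtype.ext
  funext v
  apply hα
  funext i
  exact congrFun (congrArg Subtype.val (congrFun h i)) v

/-- rooted homomorphisms -/
noncomputable def rooted {V U : Type} [Fintype V] [Fintype U] [DecidableEq U] (H : SimpleGraph V)
    (G : SimpleGraph U) (u v : V) (p : U × U) : Finset (V → U) :=
  (homs H G).filter fun z => (z u, z v) = p

theorem rooted_le [DecidableEq U] {u v : V} (σ : G ≃g G) (p : U × U) :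
    (rooted H G u v p).card ≤ (rooted H G u v (σ p.1, σ p.2)).card := by
  classical
  refine Finset.card_le_card_of_injOn (fun z w => σ (z w)) ?_ ?_
  · intro z hz
    simp only [rooted, coe_filter, Set.mem_ofPred_eq] at hz ⊢
    refine ⟨mem_homs.2 fun a b h => ?_, ?_⟩
    · exact (σ.map_adj_iff).2 (mem_homs.1 hz.1 a b h)
    · rw [← hz.2]
  · intro z _ w _ h
    funext a
    exact σ.injective (congrFun h a)

theorem rooted_eq [DecidableEq U] (hG : ArcTransitive G) {u v : V} {p q : U × U}
    (hp : p ∈ arcs G) (hq : q ∈ arcs G) :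
    (rooted H G u v p).card = (rooted H G u v q).card := by
  apply le_antisymm
  · obtain ⟨σ, h1, h2⟩ := hG _ _ _ _ (mem_arcs.1 hp) (mem_arcs.1 hq)
    have := rooted_le (H := H) (u := u) (v := v) σ p
    rwa [h1, h2] at this
  · obtain ⟨σ, h1, h2⟩ := hG _ _ _ _ (mem_arcs.1 hq) (mem_arcs.1 hp)
    have := rooted_le (H := H) (u := u) (v := v) σ q
    rwa [h1, h2] at this

theorem sum_rooted [DecidableEq U] {u v : V} (huv : H.Adj u v) :
    ∑ p ∈ arcs G, (rooted H G u v p).card = (homs H G).card := by
  classical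
  unfold rooted
  rw [Finset.card_eq_sum_card_fiberwise (f := fun z => (z u, z v)) (t := arcs G)]
  intro z hz
  exact mem_arcs.2 (mem_homs.1 hz u v huv)

theorem rooted_mul [DecidableEq U] (hG : ArcTransitive G) {u v : V} (huv : H.Adj u v)
    {p : U × U} (hp : p ∈ arcs G) :
    (rooted H G u v p).card * (arcs G).card = (homs H G).card := by
  rw [← sum_rooted (G := G) huv]
  rw [Finset.sum_congr rfl fun q hq => (rooted_eq hG (H := H) (u := u) (v := v) hq hp),
    Finset.sum_const, smul_eq_mul, mul_comm]

/-- averaging over the group -/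
theorem Sub.avg (hG : ArcTransitive G) {u v : V} (huv : H.Adj u v) (h : Sub G N G') :
    (homs H G').card * (arcs G).card ^ N ≤ (homs H G).card ^ N * (arcs G').card := by
  classical
  obtain ⟨I, _, hI, α, hα, ha⟩ := h
  have key : ∀ p ∈ arcs G', (rooted H G' u v p).card * (arcs G).card ^ N ≤
      (homs H G).card ^ N := by
    intro p hp
    have h1 : (rooted H G' u v p).card ≤ ∏ i : I, (rooted H G u v (α p.1 i, α p.2 i)).card := by
      rw [← Fintype.card_piFinset]
      refine Finset.card_le_card_of_injOn (fun z i w => α (z w) i) ?_ ?_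
      · intro z hz
        simp only [rooted, coe_filter, Set.mem_ofPred_eq] at hz
        simp only [Finset.mem_coe, Fintype.mem_piFinset]
        intro i
        simp only [rooted, mem_filter]
        refine ⟨mem_homs.2 fun a b h => ha _ _ (mem_homs.1 hz.1 a b h) i, ?_⟩
        rw [← hz.2]
      · intro z _ w _ h
        funext a
        apply hα
        funext i
        exact congrFun (congrFun h i) a
    calc (rooted H G' u v p).card * (arcs G).card ^ N
        ≤ (∏ i : I, (rooted H G u v (α p.1 i, α p.2 i)).card) * (arcs G).card ^ N :=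
          Nat.mul_le_mul_right _ h1
      _ = ∏ i : I, ((rooted H G u v (α p.1 i, α p.2 i)).card * (arcs G).card) := by
          rw [Finset.prod_mul_distrib, Finset.prod_const, Finset.card_univ, hI]
      _ = ∏ _i : I, (homs H G).card := by
          refine Finset.prod_congr rfl fun i _ => ?_
          exact rooted_mul hG huv (mem_arcs.2 (ha _ _ (mem_arcs.1 hp) i))
      _ = (homs H G).card ^ N := by
          rw [Finset.prod_const, Finset.card_univ, hI]
  rw [← sum_rooted (G := G') huv, Finset.sum_mul, mul_comm]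
  calc ∑ p ∈ arcs G', (rooted H G' u v p).card * (arcs G).card ^ N
      ≤ ∑ _p ∈ arcs G', (homs H G).card ^ N := Finset.sum_le_sum key
    _ = (arcs G').card * (homs H G).card ^ N := by rw [Finset.sum_const, smul_eq_mul]

end Vale.Agent.P050.H868
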