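import Vale.Agent.P050.TDefs

/-!
Statement-level definitions: arc-transitive graphs, bounded kernels.
-/

namespace Vale.Agent.P050.H868

open Finset

/-- The graph `G` is arc-transitive: its automorphism group is transitive on the ordered pairs of
adjacent vertices. -/
def ArcTransitive {U : Type*} (G : SimpleGraph U) : Prop :=
  ∀ x y x' y', G.Adj x y → G.Adj x' y' → ∃ σ : G ≃g G, σ x = x' ∧ σ y = y'

open Classical in
/-- The homomorphism density `t(H, W)` of the graph `H` in the symmetric kernel `W` on the finite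
probability space `(U, r)`. -/
noncomputable def kernelDensity {V U : Type} [Fintype V] [Fintype U] (H : SimpleGraph V)
    (r : U → ℝ) (W : Sym2 U → ℝ) : ℝ :=
  ∑ z : V → U, (∏ v, r (z v)) * ∏ e ∈ H.edgeFinset, W (e.map z)

/-- `(U, r)` is a finite probability space and `W` is a nonnegative symmetric kernel on it, with
mean 1, whose norm as an operator from `L^q` to the dual space of `L^q` is at most `K`. -/
structure Bounded {U : Type} [Fintype U] (q K : ℝ) (r : U → ℝ) (W : Sym2 U → ℝ) : Prop where
  r_nonneg : ∀ x, 0 ≤ r x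
  r_sum : ∑ x, r x = 1
  nonneg : ∀ e, 0 ≤ W e
  mean : ∑ x, ∑ y, r x * r y * W s(x, y) = 1
  norm : ∀ f g : U → ℝ, (∀ x, 0 ≤ f x) → (∀ x, 0 ≤ g x) →
    ∑ x, ∑ y, r x * r y * (f x * W s(x, y) * g y) ≤
      K * ((∑ x, r x * f x ^ q) ^ (1 / q) * (∑ x, r x * g x ^ q) ^ (1 / q))

open Classical in
/-- the kernel of the graph `G` with `n` vertices and `m` edges: `n ^ 2 / (2 m)` on the edges -/
noncomputable def graphKernel {U : Type} (G : SimpleGraph U) : Sym2 U → ℝ :=
  fun e => if e ∈ G.edgeSet then 1 / edgeDensity G else 0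

end Vale.Agent.P050.H868
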