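import Vale.Agent.P050.H868.Final

/-!
Arc-transitive graphs with a bounded kernel have many edges.
-/

namespace Vale.Agent.P050.H868

open Finset

variable {U : Type} [Fintype U] {G : SimpleGraph U}

open Classical in
/-- neighbours -/
noncomputable def nb (G : SimpleGraph U) (x : U) : Finset U := univ.filter fun y => G.Adj x y

open Classical in
/-- vertices with a neighbour -/
noncomputable def supp (G : SimpleGraph U) : Finset U := univ.filter fun x => ∃ y, G.Adj x y

theorem nb_card_eq (hG : ArcTransitive G) {x x' : U} (hx : x ∈ supp G) (hx' : x' ∈ supp G) :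
    (nb G x).card = (nb G x').card := by
  classical
  obtain ⟨y, hy⟩ := (Finset.mem_filter.1 hx).2
  obtain ⟨y', hy'⟩ := (Finset.mem_filter.1 hx').2
  obtain ⟨σ, h1, _⟩ := hG _ _ _ _ hy hy'
  refine Finset.card_bij (fun z _ => σ z) ?_ ?_ ?_
  · intro z hz
    have hz : G.Adj x z := (Finset.mem_filter.1 hz).2
    refine Finset.mem_filter.2 ⟨mem_univ _, ?_⟩
    rw [← h1]
    exact (σ.map_adj_iff).2 hz
  · intro a _ b _ h
    exact σ.injective h
  · intro z hz
    have hz : G.Adj x' z := (Finset.mem_filter.1 hz).2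
    refine ⟨σ.symm z, Finset.mem_filter.2 ⟨mem_univ _, ?_⟩, σ.apply_symm_apply z⟩
    have h2 : σ.symm x' = x := by rw [← h1]; exact σ.symm_apply_apply x
    have h3 := (σ.symm.map_adj_iff).2 hz
    rwa [h2] at h3

theorem arcs_eq (hG : ArcTransitive G) {x : U} (hx : x ∈ supp G) :
    (arcs G).card = (supp G).card * (nb G x).card := by
  classical
  have h1 : (arcs G).card = ∑ z ∈ supp G, (nb G z).card := by
    have h2 : arcs G = (supp G).biUnion fun z => (nb G z).image fun y => (z, y) := by
      ext ⟨a, b⟩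
      simp only [mem_arcs, mem_biUnion, mem_image, Prod.mk.injEq]
      constructor
      · intro h
        exact ⟨a, Finset.mem_filter.2 ⟨mem_univ _, b, h⟩, b,
          Finset.mem_filter.2 ⟨mem_univ _, h⟩, rfl, rfl⟩
      · rintro ⟨z, _, y, hy, rfl, rfl⟩
        exact (Finset.mem_filter.1 hy).2
    rw [h2, Finset.card_biUnion]
    · refine Finset.sum_congr rfl fun z _ => ?_
      exact Finset.card_image_of_injective _ fun a b h => congrArg Prod.snd h
    · intro a _ b _ hab
      rw [Function.onFun, Finset.disjoint_left]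
      intro p hp hp'
      obtain ⟨y, _, rfl⟩ := Finset.mem_image.1 hp
      obtain ⟨y', _, h⟩ := Finset.mem_image.1 hp'
      exact hab (congrArg Prod.fst h).symm
  rw [h1, Finset.sum_congr rfl fun z hz => nb_card_eq hG hz hx, Finset.sum_const, smul_eq_mul]

/-- the bilinear form on indicator functions -/
theorem ind_le {q K : ℝ} (hq : 0 < q) (hM : 0 < (arcs G).card)
    (hB : Bounded q K (fun _ => 1 / (Fintype.card U : ℝ)) (graphKernel G)) (S T : Finset U) :
    (pairsIn G S T : ℝ) / (arcs G).card ≤
      K * ((S.card / (Fintype.card U : ℝ)) ^ (1 / q) * (T.card / (Fintype.card U : ℝ)) ^ (1 / q)) := by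
  classical
  have hne := card_pos_of_arcs hM
  have hn : (0 : ℝ) < Fintype.card U := by exact_mod_cast Fintype.card_pos
  have hMr : (0 : ℝ) < (arcs G).card := by exact_mod_cast hM
  have h := hB.norm (fun x => if x ∈ S then 1 else 0) (fun x => if x ∈ T then 1 else 0)
    (fun x => by split_ifs <;> norm_num) (fun x => by split_ifs <;> norm_num)
  have h1 : ∀ S : Finset U, ∑ x : U, 1 / (Fintype.card U : ℝ) *
      (if x ∈ S then (1 : ℝ) else 0) ^ q = S.card / (Fintype.card U : ℝ) := by
    intro S
    have h2 : ∀ x : U, 1 / (Fintype.card U : ℝ) * (if x ∈ S then (1 : ℝ) else 0) ^ q =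
        (if x ∈ S then (1 : ℝ) else 0) * (1 / (Fintype.card U : ℝ)) := by
      intro x
      split_ifs
      · rw [Real.one_rpow]; ring
      · rw [Real.zero_rpow hq.ne']; ring
    simp only [h2]
    rw [← Finset.sum_mul, Finset.sum_boole, Finset.filter_univ_mem]
    ring
  rw [h1, h1] at h
  refine le_trans (le_of_eq ?_) h
  unfold pairsIn
  rw [Finset.card_filter, Nat.cast_sum, Finset.sum_product, Finset.sum_div,
    ← Finset.sum_filter_add_sum_filter_not univ (fun x => x ∈ S)]
  rw [Finset.filter_univ_mem]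
  have h3 : ∑ x ∈ univ.filter (fun x => ¬ x ∈ S), ∑ y, 1 / (Fintype.card U : ℝ) *
      (1 / (Fintype.card U : ℝ)) * ((if x ∈ S then (1 : ℝ) else 0) * graphKernel G s(x, y) *
        (if y ∈ T then (1 : ℝ) else 0)) = 0 := by
    refine Finset.sum_eq_zero fun x hx => Finset.sum_eq_zero fun y _ => ?_
    rw [if_neg (Finset.mem_filter.1 hx).2]
    ring
  rw [h3, add_zero]
  refine Finset.sum_congr rfl fun x hx => ?_
  rw [← Finset.sum_filter_add_sum_filter_not univ (fun y => y ∈ T), Finset.filter_univ_mem]
  have h4 : ∑ y ∈ univ.filter (fun y => ¬ y ∈ T), 1 / (Fintype.card U : ℝ) *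
      (1 / (Fintype.card U : ℝ)) * ((if x ∈ S then (1 : ℝ) else 0) * graphKernel G s(x, y) *
        (if y ∈ T then (1 : ℝ) else 0)) = 0 := by
    refine Finset.sum_eq_zero fun y hy => ?_
    rw [if_neg (Finset.mem_filter.1 hy).2]
    ring
  rw [h4, add_zero, Finset.sum_div]
  refine Finset.sum_congr rfl fun y hy => ?_
  rw [if_pos hx, if_pos hy]
  unfold graphKernel
  rw [edgeDensity_eq_arcs]
  by_cases h5 : G.Adj x y
  · rw [if_pos h5, if_pos (show s(x, y) ∈ G.edgeSet from h5)]
    push_cast
    field_simp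
  · rw [if_neg h5, if_neg (show s(x, y) ∉ G.edgeSet from h5)]
    simp

/-- **many edges** -/
theorem density_ge {q ε : ℝ} (hq : 1 ≤ q) (hε : 0 ≤ ε) (hG : ArcTransitive G)
    (hB : Bounded q ((Fintype.card U : ℝ) ^ ε) (fun _ => 1 / (Fintype.card U : ℝ))
      (graphKernel G)) :
    (Fintype.card U : ℝ) ^ (1 - q - 2 * q * ε) ≤ edgeDensity G := by
  classical
  have hq0 : 0 < q := by linarith
  have hM : 0 < (arcs G).card := by
    rcases Nat.eq_zero_or_pos (arcs G).card with h0 | h0
    · exfalso
      have h1 := hB.mean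
      have h2 : ∀ x y : U, graphKernel G s(x, y) = 0 := by
        intro x y
        unfold graphKernel
        rw [if_neg]
        intro h
        have : (x, y) ∈ arcs G := mem_arcs.2 h
        rw [Finset.card_eq_zero.1 h0] at this
        exact absurd this (Finset.notMem_empty _)
      simp only [h2, mul_zero, Finset.sum_const_zero] at h1
      exact zero_ne_one h1
    · exact h0
  have hne := card_pos_of_arcs hM
  have hn : (0 : ℝ) < Fintype.card U := by exact_mod_cast Fintype.card_pos
  have hn1 : (1 : ℝ) ≤ Fintype.card U := by exact_mod_cast Fintype.card_pos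
  have hMr : (0 : ℝ) < (arcs G).card := by exact_mod_cast hM
  obtain ⟨⟨x, y⟩, hxy⟩ := Finset.card_pos.1 hM
  have hxy : G.Adj x y := mem_arcs.1 hxy
  have hx : x ∈ supp G := Finset.mem_filter.2 ⟨mem_univ _, y, hxy⟩
  have hA := arcs_eq hG hx
  set n : ℝ := (Fintype.card U : ℝ) with hnd
  have hs0 : 0 < (supp G).card := Finset.card_pos.2 ⟨x, hx⟩
  have hD0 : 0 < (nb G x).card :=
    Finset.card_pos.2 ⟨y, Finset.mem_filter.2 ⟨mem_univ _, hxy⟩⟩
  have hs : (0 : ℝ) < (supp G).card := by exact_mod_cast hs0
  have hD : (0 : ℝ) < (nb G x).card := by exact_mod_cast hD0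
  have hsn : ((supp G).card : ℝ) ≤ n := by
    rw [hnd]
    exact_mod_cast Finset.card_le_univ (supp G)
  have hAr : ((arcs G).card : ℝ) = (supp G).card * (nb G x).card := by exact_mod_cast hA
  -- the support is large
  have h1 : n ^ (-(q * ε / 2)) ≤ (supp G).card / n := by
    have h2 := ind_le hq0 hM hB (supp G) (supp G)
    have h3 : pairsIn G (supp G) (supp G) = (arcs G).card := by
      unfold pairsIn arcs
      congr 1
      ext ⟨a, b⟩
      simp only [mem_filter, mem_product, mem_univ, true_and]
      constructor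
      · exact fun h => h.2
      · intro h
        exact ⟨⟨Finset.mem_filter.2 ⟨mem_univ _, b, h⟩,
          Finset.mem_filter.2 ⟨mem_univ _, a, h.symm⟩⟩, h⟩
    rw [h3, div_self hMr.ne', ← Real.mul_rpow (by positivity) (by positivity)] at h2
    have h4 : n ^ (-ε) ≤ ((supp G).card / n * ((supp G).card / n)) ^ (1 / q) := by
      rw [Real.rpow_neg hn.le, inv_le_iff_one_le_mul₀ (by positivity)]
      rw [mul_comm]
      exact h2
    have h5 := Real.rpow_le_rpow (by positivity) h4 (show 0 ≤ q / 2 by positivity)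
    rw [← Real.rpow_mul hn.le, ← Real.rpow_mul (by positivity), ← sq, ← Real.rpow_natCast,
      ← Real.rpow_mul (by positivity)] at h5
    have h6 : ((2 : ℕ) : ℝ) * (1 / q * (q / 2)) = 1 := by push_cast; field_simp
    rw [h6, Real.rpow_one] at h5
    refine le_trans (le_of_eq ?_) h5
    congr 1
    ring
  -- the degree is large
  have h2 : n ^ (2 - q - q * ε) ≤ (nb G x).card := by
    have h3 := ind_le hq0 hM hB {x} (nb G x)
    have h4 : pairsIn G {x} (nb G x) = (nb G x).card := by
      unfold pairsIn
      rw [Finset.singleton_product, Finset.filter_true_of_mem, Finset.card_map]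
      intro p hp
      obtain ⟨z, hz, rfl⟩ := Finset.mem_map.1 hp
      exact (Finset.mem_filter.1 hz).2
    rw [h4, Finset.card_singleton, hAr, Nat.cast_one,
      ← Real.mul_rpow (by positivity) (by positivity)] at h3
    have h5 : 1 / n ≤ n ^ ε * (1 / n * ((nb G x).card / n)) ^ (1 / q) := by
      refine le_trans ?_ h3
      rw [div_mul_cancel_right₀ hD.ne', ← one_div]
      exact one_div_le_one_div_of_le hs hsn
    have h6 : n ^ (-(1 + ε)) ≤ (1 / n * ((nb G x).card / n)) ^ (1 / q) := by
      have h7 : n ^ (-(1 + ε)) = 1 / n / n ^ ε := by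
        rw [neg_add, Real.rpow_add hn, Real.rpow_neg hn.le, Real.rpow_neg hn.le, Real.rpow_one]
        ring
      rw [h7, div_le_iff₀ (by positivity)]
      linarith
    have h7 := Real.rpow_le_rpow (by positivity) h6 hq0.le
    rw [← Real.rpow_mul hn.le, ← Real.rpow_mul (by positivity), one_div_mul_cancel hq0.ne',
      Real.rpow_one] at h7
    have h8 : 1 / n * ((nb G x).card / n) = (nb G x).card / n ^ 2 := by
      field_simp
    rw [h8, le_div_iff₀ (by positivity)] at h7
    refine le_trans (le_of_eq ?_) h7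
    rw [← Real.rpow_natCast n 2, ← Real.rpow_add hn]
    congr 1
    push_cast
    ring
  rw [edgeDensity_eq_arcs, hAr]
  calc n ^ (1 - q - 2 * q * ε) ≤ n ^ (-(q * ε / 2) + (2 - q - q * ε) + (-1)) := by
        refine Real.rpow_le_rpow_of_exponent_le hn1 ?_
        have : 0 ≤ q * ε := by positivity
        linarith
    _ = n ^ (-(q * ε / 2)) * n ^ (2 - q - q * ε) * n ^ (-1 : ℝ) := by
        rw [Real.rpow_add hn, Real.rpow_add hn]
    _ ≤ ((supp G).card / n) * (nb G x).card * n ^ (-1 : ℝ) := by gcongr
    _ = (supp G).card * (nb G x).card / n ^ 2 := by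
        rw [Real.rpow_neg_one]
        field_simp

end Vale.Agent.P050.H868
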