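import Vale.Agent.P050.H868.General

/-!
Upper regular graphs have bounded kernels (dyadic decomposition).
-/

namespace Vale.Agent.P050.H868

open Finset

open Classical in
/-- superlevel sets -/
noncomputable def lev {U : Type} [Fintype U] (u : U → ℝ) (i : ℕ) : Finset U :=
  univ.filter fun x => i = 0 ∨ (2 : ℝ) ^ (i - 1) ≤ u x

theorem layer {U : Type} [Fintype U] (u : U → ℝ) (x : U) (L : ℕ) (h : u x < 2 ^ L) :
    u x ≤ (open Classical in ∑ i ∈ range (L + 1), if x ∈ lev u i then (2 : ℝ) ^ i else 0) := by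
  classical
  induction L with
  | zero =>
    rw [zero_add, Finset.sum_range_one, if_pos (by simp [lev])]
    exact h.le
  | succ L ih =>
    rw [Finset.sum_range_succ]
    rcases lt_or_ge (u x) (2 ^ L) with h1 | h1
    · have := ih h1
      have h2 : (0 : ℝ) ≤ if x ∈ lev u (L + 1) then (2 : ℝ) ^ (L + 1) else 0 := by
        split_ifs <;> positivity
      linarith
    · rw [if_pos (show x ∈ lev u (L + 1) by simp [lev, h1])]
      have h2 : (0 : ℝ) ≤ ∑ i ∈ range (L + 1), if x ∈ lev u i then (2 : ℝ) ^ i else 0 :=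
        Finset.sum_nonneg fun i _ => by split_ifs <;> positivity
      linarith

/-- Markov's inequality for the superlevel sets -/
theorem lev_card {U : Type} [Fintype U] [Nonempty U] {κ : ℝ} (hκ : 0 < κ) {u : U → ℝ}
    (hu : ∀ x, 0 ≤ u x) (h1 : ∑ x, u x ^ (1 / κ) ≤ Fintype.card U) (i : ℕ) :
    (2 : ℝ) ^ i * ((lev u i).card / (Fintype.card U : ℝ)) ^ κ ≤ 2 := by
  classical
  have hn : (0 : ℝ) < Fintype.card U := by exact_mod_cast Fintype.card_pos
  rcases Nat.eq_zero_or_pos i with h | h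
  · subst h
    have h2 : ((lev u 0).card : ℝ) / Fintype.card U ≤ 1 := by
      rw [div_le_one hn]
      exact_mod_cast Finset.card_le_univ _
    have h3 : ((lev u 0).card / (Fintype.card U : ℝ)) ^ κ ≤ 1 :=
      Real.rpow_le_one (by positivity) h2 hκ.le
    rw [pow_zero, one_mul]
    linarith
  · have h2 : ((2 : ℝ) ^ (i - 1)) ^ (1 / κ) * (lev u i).card ≤ Fintype.card U := by
      refine le_trans ?_ h1
      calc ((2 : ℝ) ^ (i - 1)) ^ (1 / κ) * (lev u i).card
          = ∑ _x ∈ lev u i, ((2 : ℝ) ^ (i - 1)) ^ (1 / κ) := by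
            rw [Finset.sum_const, nsmul_eq_mul, mul_comm]
        _ ≤ ∑ x ∈ lev u i, u x ^ (1 / κ) := by
            refine Finset.sum_le_sum fun x hx => ?_
            have h3 : (2 : ℝ) ^ (i - 1) ≤ u x := by
              rcases (Finset.mem_filter.1 hx).2 with h4 | h4
              · omega
              · exact h4
            exact Real.rpow_le_rpow (by positivity) h3 (by positivity)
        _ ≤ ∑ x, u x ^ (1 / κ) := Finset.sum_le_sum_of_subset_of_nonneg (Finset.subset_univ _)
            fun x _ _ => Real.rpow_nonneg (hu x) _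
    have h3 : (lev u i).card / (Fintype.card U : ℝ) ≤ 1 / ((2 : ℝ) ^ (i - 1)) ^ (1 / κ) := by
      rw [div_le_div_iff₀ hn (by positivity)]
      linarith
    have h4 : ((lev u i).card / (Fintype.card U : ℝ)) ^ κ ≤ 1 / (2 : ℝ) ^ (i - 1) := by
      refine (Real.rpow_le_rpow (by positivity) h3 hκ.le).trans (le_of_eq ?_)
      rw [Real.div_rpow zero_le_one (by positivity), Real.one_rpow, ← Real.rpow_mul (by positivity),
        one_div_mul_cancel hκ.ne', Real.rpow_one]
    calc (2 : ℝ) ^ i * ((lev u i).card / (Fintype.card U : ℝ)) ^ κ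
        ≤ (2 : ℝ) ^ i * (1 / (2 : ℝ) ^ (i - 1)) := mul_le_mul_of_nonneg_left h4 (by positivity)
      _ = 2 := by
          obtain ⟨j, rfl⟩ : ∃ j, i = j + 1 := ⟨i - 1, by omega⟩
          rw [Nat.add_sub_cancel, pow_succ]
          field_simp

theorem sum_arcs_le {U : Type} [Fintype U] [Nonempty U] {G : SimpleGraph U} {κ ε : ℝ}
    (hκ : 0 < κ) (hκ1 : κ ≤ 1) (h : UpperRegular κ ε G) {u w : U → ℝ} (hu : ∀ x, 0 ≤ u x)
    (hw : ∀ x, 0 ≤ w x) (hu1 : ∑ x, u x ^ (1 / κ) = Fintype.card U)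
    (hw1 : ∑ x, w x ^ (1 / κ) = Fintype.card U) :
    ∑ p ∈ arcs G, u p.1 * w p.2 ≤ (Fintype.card U : ℝ) ^ ε *
      (4 * ((Nat.log 2 (Fintype.card U) : ℝ) + 2) ^ 2) * (arcs G).card := by
  classical
  have hn : (0 : ℝ) < Fintype.card U := by exact_mod_cast Fintype.card_pos
  have hn1 : (1 : ℝ) ≤ Fintype.card U := by exact_mod_cast Fintype.card_pos
  set L := Nat.log 2 (Fintype.card U) + 1 with hL
  have hbig : ∀ (u : U → ℝ), (∀ x, 0 ≤ u x) → ∑ x, u x ^ (1 / κ) = Fintype.card U →
      ∀ x, u x < 2 ^ L := by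
    intro u hu hu1 x
    have h1 : u x ^ (1 / κ) ≤ Fintype.card U := by
      rw [← hu1]
      exact Finset.single_le_sum (f := fun x => u x ^ (1 / κ))
        (fun x _ => Real.rpow_nonneg (hu x) _) (mem_univ x)
    have h2 : u x ≤ Fintype.card U := by
      have h3 := Real.rpow_le_rpow (Real.rpow_nonneg (hu x) _) h1 hκ.le
      rw [← Real.rpow_mul (hu x), one_div_mul_cancel hκ.ne', Real.rpow_one] at h3
      refine h3.trans ?_
      calc (Fintype.card U : ℝ) ^ κ ≤ (Fintype.card U : ℝ) ^ (1 : ℝ) :=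
            Real.rpow_le_rpow_of_exponent_le hn1 hκ1
        _ = Fintype.card U := Real.rpow_one _
    have h3 : (Fintype.card U : ℝ) < 2 ^ L := by
      exact_mod_cast Nat.lt_pow_succ_log_self (by norm_num) _
    linarith
  have hlu := fun x => layer u x L (hbig u hu hu1 x)
  have hlw := fun x => layer w x L (hbig w hw hw1 x)
  have h1 : ∑ p ∈ arcs G, u p.1 * w p.2 ≤
      ∑ p ∈ arcs G, (∑ i ∈ range (L + 1), if p.1 ∈ lev u i then (2 : ℝ) ^ i else 0) *
        (∑ j ∈ range (L + 1), if p.2 ∈ lev w j then (2 : ℝ) ^ j else 0) :=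
    Finset.sum_le_sum fun p _ => mul_le_mul (hlu _) (hlw _) (hw _) ((hu _).trans (hlu _))
  have h2 : ∑ p ∈ arcs G, (∑ i ∈ range (L + 1), if p.1 ∈ lev u i then (2 : ℝ) ^ i else 0) *
        (∑ j ∈ range (L + 1), if p.2 ∈ lev w j then (2 : ℝ) ^ j else 0) =
      ∑ i ∈ range (L + 1), ∑ j ∈ range (L + 1), (2 : ℝ) ^ i * (2 : ℝ) ^ j *
        pairsIn G (lev u i) (lev w j) := by
    have h3 : ∀ i j, (2 : ℝ) ^ i * (2 : ℝ) ^ j * pairsIn G (lev u i) (lev w j) =
        ∑ p ∈ arcs G, (if p.1 ∈ lev u i then (2 : ℝ) ^ i else 0) *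
          (if p.2 ∈ lev w j then (2 : ℝ) ^ j else 0) := by
      intro i j
      have h4 : (pairsIn G (lev u i) (lev w j) : ℝ) =
          ∑ p ∈ arcs G, if p.1 ∈ lev u i ∧ p.2 ∈ lev w j then (1 : ℝ) else 0 := by
        rw [Finset.sum_boole, pairsIn]
        congr 2
        ext p
        simp only [mem_filter, mem_product, mem_arcs]
        tauto
      rw [h4, Finset.mul_sum]
      refine Finset.sum_congr rfl fun p _ => ?_
      by_cases ha : p.1 ∈ lev u i <;> by_cases hb : p.2 ∈ lev w j <;> simp [ha, hb]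
    simp only [h3]
    simp only [Finset.sum_mul_sum]
    rw [Finset.sum_comm]
    refine Finset.sum_congr rfl fun i _ => ?_
    rw [Finset.sum_comm]
  have h3 : ∀ i ∈ range (L + 1), ∀ j ∈ range (L + 1), (2 : ℝ) ^ i * (2 : ℝ) ^ j *
      pairsIn G (lev u i) (lev w j) ≤ (Fintype.card U : ℝ) ^ ε * (arcs G).card * 4 := by
    intro i _ j _
    have h4 := h (lev u i) (lev w j)
    rw [pairsIn_univ] at h4
    have h5 : ((lev u i).card : ℝ) * (lev w j).card / (Fintype.card U : ℝ) ^ 2 =
        ((lev u i).card / (Fintype.card U : ℝ)) * ((lev w j).card / (Fintype.card U : ℝ)) := by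
      field_simp
    rw [h5, Real.mul_rpow (by positivity) (by positivity)] at h4
    have h6 := lev_card hκ hu hu1.le i
    have h7 := lev_card hκ hw hw1.le j
    calc (2 : ℝ) ^ i * (2 : ℝ) ^ j * pairsIn G (lev u i) (lev w j)
        ≤ (2 : ℝ) ^ i * (2 : ℝ) ^ j * ((Fintype.card U : ℝ) ^ ε * (arcs G).card *
          (((lev u i).card / (Fintype.card U : ℝ)) ^ κ *
            ((lev w j).card / (Fintype.card U : ℝ)) ^ κ)) :=
          mul_le_mul_of_nonneg_left h4 (by positivity)
      _ = (Fintype.card U : ℝ) ^ ε * (arcs G).card *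
          (((2 : ℝ) ^ i * ((lev u i).card / (Fintype.card U : ℝ)) ^ κ) *
            ((2 : ℝ) ^ j * ((lev w j).card / (Fintype.card U : ℝ)) ^ κ)) := by ring
      _ ≤ (Fintype.card U : ℝ) ^ ε * (arcs G).card * (2 * 2) := by gcongr
      _ = _ := by ring
  calc ∑ p ∈ arcs G, u p.1 * w p.2
      ≤ ∑ i ∈ range (L + 1), ∑ j ∈ range (L + 1), (2 : ℝ) ^ i * (2 : ℝ) ^ j *
        pairsIn G (lev u i) (lev w j) := by rw [← h2]; exact h1
    _ ≤ ∑ _i ∈ range (L + 1), ∑ _j ∈ range (L + 1),
        (Fintype.card U : ℝ) ^ ε * (arcs G).card * 4 :=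
        Finset.sum_le_sum fun i hi => Finset.sum_le_sum fun j hj => h3 i hi j hj
    _ = _ := by
        rw [Finset.sum_const, Finset.sum_const, Finset.card_range, nsmul_eq_mul, nsmul_eq_mul, hL]
        push_cast
        ring

/-- upper regular graphs have bounded kernels -/
theorem bounded_of_upper {U : Type} [Fintype U] {G : SimpleGraph U} {κ ε : ℝ}
    (hκ : 0 < κ) (hκ1 : κ ≤ 1) (hM : 0 < (arcs G).card) (h : UpperRegular κ ε G) :
    Bounded (1 / κ) ((Fintype.card U : ℝ) ^ ε *
      (4 * ((Nat.log 2 (Fintype.card U) : ℝ) + 2) ^ 2)) (fun _ => 1 / (Fintype.card U : ℝ))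
      (graphKernel G) := by
  classical
  have hne := card_pos_of_arcs hM
  have hn : (0 : ℝ) < Fintype.card U := by exact_mod_cast Fintype.card_pos
  have hMr : (0 : ℝ) < (arcs G).card := by exact_mod_cast hM
  have hsum : ∀ f g : U → ℝ, ∑ x, ∑ y, 1 / (Fintype.card U : ℝ) * (1 / (Fintype.card U : ℝ)) *
      (f x * graphKernel G s(x, y) * g y) = (∑ p ∈ arcs G, f p.1 * g p.2) / (arcs G).card := by
    intro f g
    unfold arcs
    rw [Finset.sum_filter, Fintype.sum_prod_type, Finset.sum_div]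
    refine Finset.sum_congr rfl fun x _ => ?_
    rw [Finset.sum_div]
    refine Finset.sum_congr rfl fun y _ => ?_
    unfold graphKernel
    rw [edgeDensity_eq_arcs]
    unfold arcs at hMr ⊢
    by_cases h1 : G.Adj x y
    · rw [if_pos (show s(x, y) ∈ G.edgeSet from h1), if_pos h1]
      field_simp
    · rw [if_neg (show s(x, y) ∉ G.edgeSet from h1), if_neg h1]
      simp
  refine ⟨fun _ => by positivity, ?_, ?_, ?_, ?_⟩
  · rw [Finset.sum_const, Finset.card_univ, nsmul_eq_mul]
    field_simp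
  · intro e
    unfold graphKernel
    split_ifs
    · rw [edgeDensity_eq_arcs]; positivity
    · exact le_rfl
  · have := hsum (fun _ => 1) (fun _ => 1)
    simp only [one_mul, mul_one, Finset.sum_const, nsmul_eq_mul] at this
    rw [this, div_self hMr.ne']
  · intro f g hf hg
    rw [hsum, div_le_iff₀ hMr, one_div_one_div]
    set A := ∑ x, 1 / (Fintype.card U : ℝ) * f x ^ (1 / κ) with hA
    set B := ∑ x, 1 / (Fintype.card U : ℝ) * g x ^ (1 / κ) with hB
    have hA0 : 0 ≤ A := Finset.sum_nonneg fun x _ =>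
      mul_nonneg (by positivity) (Real.rpow_nonneg (hf x) _)
    have hB0 : 0 ≤ B := Finset.sum_nonneg fun x _ =>
      mul_nonneg (by positivity) (Real.rpow_nonneg (hg x) _)
    have hzero : ∀ f : U → ℝ, (∀ x, 0 ≤ f x) →
        ∑ x, 1 / (Fintype.card U : ℝ) * f x ^ (1 / κ) = 0 → ∀ x, f x = 0 := by
      intro f hf h0 x
      have h1 := (Finset.sum_eq_zero_iff_of_nonneg fun x _ =>
        mul_nonneg (by positivity) (Real.rpow_nonneg (hf x) _)).1 h0 x (mem_univ x)
      have h2 : f x ^ (1 / κ) = 0 := by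
        rcases mul_eq_zero.1 h1 with h2 | h2
        · exact absurd h2 (by positivity)
        · exact h2
      exact (Real.rpow_eq_zero (hf x) (by positivity)).1 h2
    rcases hA0.eq_or_lt with h0 | hA1
    · have h1 : ∑ p ∈ arcs G, f p.1 * g p.2 = 0 := Finset.sum_eq_zero fun p _ => by
        rw [hzero f hf h0.symm, zero_mul]
      rw [h1]
      have := Real.rpow_nonneg hA0 κ
      have := Real.rpow_nonneg hB0 κ
      positivity
    rcases hB0.eq_or_lt with h0 | hB1
    · have h1 : ∑ p ∈ arcs G, f p.1 * g p.2 = 0 := Finset.sum_eq_zero fun p _ => by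
        rw [hzero g hg h0.symm p.2, mul_zero]
      rw [h1]
      have := Real.rpow_nonneg hA0 κ
      have := Real.rpow_nonneg hB0 κ
      positivity
    have hnorm : ∀ (f : U → ℝ) (A : ℝ), (∀ x, 0 ≤ f x) → 0 < A →
        A = ∑ x, 1 / (Fintype.card U : ℝ) * f x ^ (1 / κ) →
        ∑ x, (f x / A ^ κ) ^ (1 / κ) = Fintype.card U := by
      intro f A hf hA1 hA
      have h1 : ∀ x, (f x / A ^ κ) ^ (1 / κ) = f x ^ (1 / κ) / A := fun x => by
        rw [Real.div_rpow (hf x) (by positivity), ← Real.rpow_mul hA1.le, mul_one_div,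
          div_self hκ.ne', Real.rpow_one]
      simp only [h1]
      rw [← Finset.sum_div, div_eq_iff hA1.ne', hA, ← Finset.mul_sum]
      field_simp
    have key := sum_arcs_le hκ hκ1 h (u := fun x => f x / A ^ κ) (w := fun x => g x / B ^ κ)
      (fun x => div_nonneg (hf x) (by positivity)) (fun x => div_nonneg (hg x) (by positivity))
      (hnorm f A hf hA1 hA) (hnorm g B hg hB1 hB)
    have h1 : ∑ p ∈ arcs G, f p.1 / A ^ κ * (g p.2 / B ^ κ) =
        (∑ p ∈ arcs G, f p.1 * g p.2) / (A ^ κ * B ^ κ) := by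
      rw [Finset.sum_div]
      refine Finset.sum_congr rfl fun p _ => ?_
      rw [div_mul_div_comm]
    rw [h1, div_le_iff₀ (by positivity)] at key
    refine key.trans (le_of_eq ?_)
    ring

theorem Bounded.mono {U : Type} [Fintype U] {q K K' : ℝ} {r : U → ℝ} {W : Sym2 U → ℝ}
    (h : Bounded q K r W) (hK : K ≤ K') : Bounded q K' r W := by
  refine ⟨h.r_nonneg, h.r_sum, h.nonneg, h.mean, fun f g hf hg => (h.norm f g hf hg).trans ?_⟩
  refine mul_le_mul_of_nonneg_right hK (mul_nonneg ?_ ?_)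
  · exact Real.rpow_nonneg (Finset.sum_nonneg fun x _ =>
      mul_nonneg (h.r_nonneg x) (Real.rpow_nonneg (hf x) _)) _
  · exact Real.rpow_nonneg (Finset.sum_nonneg fun x _ =>
      mul_nonneg (h.r_nonneg x) (Real.rpow_nonneg (hg x) _)) _

end Vale.Agent.P050.H868
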