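import Vale.Agent.P050.H868.Reg

/-!
Regular graphs: the equivalence.
-/

namespace Vale.Agent.P050.H868

open Finset Vale.Agent.P050.Lev

theorem le_of_pow_le {x y C : ℝ} {K : ℕ} (hy : 0 ≤ y) (hC : 0 < C)
    (h : ∀ N : ℕ, 1 ≤ N → C * x ^ (2 * N) ≤ ((N : ℝ) + 1) ^ K * y ^ (2 * N)) : x ≤ y := by
  by_contra hlt
  push Not at hlt
  have hx : 0 < x := hy.trans_lt hlt
  rcases hy.eq_or_lt with h0 | h0
  · have h1 := h 1 le_rfl
    rw [← h0] at h1
    have : 0 < C * x ^ 2 := by positivity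
    norm_num at h1
    linarith [h1, this]
  · have hρ : 1 < x / y := (one_lt_div h0).2 hlt
    have hρ2 : 1 < (x / y) ^ 2 := one_lt_pow₀ hρ (by norm_num)
    have ht := tendsto_pow_const_div_const_pow_of_one_lt K hρ2
    have hpos : 0 < C / (x / y) ^ 2 := by positivity
    obtain ⟨N0, hN0⟩ := Filter.eventually_atTop.1 (ht.eventually (gt_mem_nhds hpos))
    have h1 := hN0 (N0 + 1 + 1) (by omega)
    have h2 := h (N0 + 1) (by omega)
    have h3 : (x / y) ^ (2 * (N0 + 1)) = x ^ (2 * (N0 + 1)) / y ^ (2 * (N0 + 1)) := div_pow _ _ _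
    have h4 : C * (x / y) ^ (2 * (N0 + 1)) ≤ ((N0 + 1 : ℕ) + 1 : ℝ) ^ K := by
      rw [h3, mul_div_assoc', div_le_iff₀ (by positivity)]
      exact h2
    rw [div_lt_div_iff₀ (by positivity) (by positivity)] at h1
    have h5 : ((x / y) ^ 2) ^ (N0 + 1 + 1) = (x / y) ^ (2 * (N0 + 1)) * (x / y) ^ 2 := by
      rw [← pow_mul, ← pow_add]
      congr 1
    rw [h5] at h1
    have h6 : ((N0 + 1 + 1 : ℕ) : ℝ) = ((N0 + 1 : ℕ) : ℝ) + 1 := by push_cast; ring
    rw [h6] at h1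
    have h7 : C * (x / y) ^ (2 * (N0 + 1)) * (x / y) ^ 2 ≤
        ((N0 + 1 : ℕ) + 1 : ℝ) ^ K * (x / y) ^ 2 :=
      mul_le_mul_of_nonneg_right h4 (by positivity)
    linarith

variable {V : Type} [Fintype V] [DecidableEq V] {H : SimpleGraph V} {s : V → Bool}

/-- the exponent -/
theorem kappa_eq {a d : ℕ} (ha : 1 ≤ a) (hd : 2 ≤ d) :
    0 < (a * (d - 1) : ℝ) / (a * d - 1) ∧
    1 + ((a * (d - 1) : ℝ) / (a * d - 1) - 1) * d =
      ((a * (d - 1) : ℝ) / (a * d - 1)) / ((a * d : ℕ) : ℝ) * d ∧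
    (a * (d - 1) : ℝ) / (a * d - 1) * ((a * d - 1 : ℕ) : ℝ) = ((a * d - a : ℕ) : ℝ) := by
  have ha' : (1 : ℝ) ≤ a := by exact_mod_cast ha
  have hd' : (2 : ℝ) ≤ d := by exact_mod_cast hd
  have h1 : (2 : ℝ) ≤ a * d := by nlinarith
  have h2 : (0 : ℝ) < a * d - 1 := by linarith
  have h3 : (a : ℕ) ≤ a * d := Nat.le_mul_of_pos_right a (by omega)
  have h4 : 1 ≤ a * d := by nlinarith
  refine ⟨div_pos (by nlinarith) h2, ?_, ?_⟩
  · push_cast
    field_simp
    ring
  · rw [Nat.cast_sub h3, Nat.cast_sub h4]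
    push_cast
    field_simp

theorem step_transitive (hs : ∀ u v, H.Adj u v → s u ≠ s v) {d a : ℕ} (hd0 : 2 ≤ d)
    (hd : ∀ v, Nat.card {u // H.Adj v u} = d) (ha0 : 1 ≤ a) (ha : Fintype.card V = 2 * a)
    {c δ : ℝ} (hc : 0 < c)
    (hyp : ∀ (U : Type) [Fintype U] [Nonempty U] (r : U → ℝ) (W : Sym2 U → ℝ),
      Bounded ((a * d - 1) / (a * (d - 1))) 1 r W →
        c * (Fintype.card U : ℝ) ^ (-δ) ≤ kernelDensity H r W)
    {U : Type} [Fintype U] [Nonempty U] {G : SimpleGraph U} (hG : ArcTransitive G)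
    (hM : 0 < (arcs G).card) :
    Real.sqrt c * (Fintype.card U : ℝ) ^ (-δ) * ((arcs G).card : ℝ) ^ (a * d) ≤
      (homs H G).card * (Fintype.card U : ℝ) ^ (2 * (a * d - a)) := by
  obtain ⟨hκ, hw, hκ1⟩ := kappa_eq ha0 hd0
  set κ : ℝ := (a * (d - 1) : ℝ) / (a * d - 1) with hκd
  have hn : (0 : ℝ) < Fintype.card U := by exact_mod_cast Fintype.card_pos
  have hMr : (0 : ℝ) < (arcs G).card := by exact_mod_cast hM
  have hcard := card_side hs (by omega) hd ha
  have h4 : 1 ≤ a * d := by nlinarith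
  obtain ⟨r, t, hr, ht, hr1, ht1, hmax⟩ := exists_maximiser G hκ
  set A := Phi κ G r t with hAdef
  -- the uniform vectors
  have hA1 : (arcs G).card / ((Fintype.card U : ℝ) ^ κ) ^ 2 ≤ A := by
    have h1 := hmax (fun _ => 1 / Fintype.card U) (fun _ => 1 / Fintype.card U)
      (fun _ => by positivity) (fun _ => by positivity)
      (by rw [Finset.sum_const, Finset.card_univ, nsmul_eq_mul]; field_simp)
      (by rw [Finset.sum_const, Finset.card_univ, nsmul_eq_mul]; field_simp)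
    refine le_trans (le_of_eq ?_) h1
    unfold Phi
    rw [Finset.sum_const, nsmul_eq_mul, Real.div_rpow zero_le_one hn.le, Real.one_rpow]
    field_simp
  have hA : 0 < A := lt_of_lt_of_le (by positivity) hA1
  set m : Bool → U → ℝ := fun b => bif b then t else r with hm
  have hm0 : ∀ b x, 0 ≤ m b x := by
    rintro (_ | _) x
    · exact hr x
    · exact ht x
  have hs' : ∀ u v, H.Adj u v → (!s u) ≠ (!s v) := fun u v h h' => hs u v h (by simpa using h')
  have hcard' := card_side hs' (by omega) hd ha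
  have hD1 := dens2_le hG hs (by omega) hd hκ (by rw [hcard]; omega) (by rw [hcard]; exact hw)
    hm0 hA hAdef
  have hD2 := dens2_le hG hs' (by omega) hd hκ (by rw [hcard']; omega) (by rw [hcard']; exact hw)
    hm0 hA hAdef
  rw [hcard] at hD1
  rw [hcard'] at hD2
  have hW0 : ∀ x y, 0 ≤ Wk κ A G r t x y := Wk_nonneg hA.le hr ht
  have hmean : ∑ x, ∑ y, r x * t y * Wk κ A G r t x y = 1 := by
    have h1 := sum_Wk (G := G) (A := A) hκ hr ht (f := fun _ => 1) (g := fun _ => 1)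
      (fun _ => zero_le_one) (fun _ => zero_le_one)
    simp only [one_mul, mul_one, Real.one_rpow] at h1
    rw [h1, ← hAdef, div_self hA.ne']
  have hcontr := twist_contractive hκ hr ht hr1 ht1 hW0 hmean
    fun f g hf hg => contr2 hκ hA hr ht hmax hf hg
  have hq : 1 / κ = (a * d - 1) / (a * (d - 1)) := by rw [hκd, one_div_div]
  rw [hq] at hcontr
  have hk := hyp (U × U) _ _ hcontr
  have htw := twist_density hs m (Wk κ A G r t)
  change kernelDensity H (fun p : U × U => r p.1 * t p.2) (twist (Wk κ A G r t)) =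
    dens2 H s m (Wk κ A G r t) * dens2 H (fun v => !s v) m (Wk κ A G r t) at htw
  rw [htw] at hk
  change dens2 H s m (Wk κ A G r t) * A ^ (a * d) * (arcs G).card ≤ _ at hD1
  change dens2 H (fun v => !s v) m (Wk κ A G r t) * A ^ (a * d) * (arcs G).card ≤ _ at hD2
  set D1 := dens2 H s m (Wk κ A G r t)
  set D2 := dens2 H (fun v => !s v) m (Wk κ A G r t)
  have hD1n : 0 ≤ D1 := Finset.sum_nonneg fun z _ => mul_nonneg
    (Finset.prod_nonneg fun v _ => hm0 _ _) (Finset.prod_nonneg fun e _ => hW0 _ _)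
  have hD2n : 0 ≤ D2 := Finset.sum_nonneg fun z _ => mul_nonneg
    (Finset.prod_nonneg fun v _ => hm0 _ _) (Finset.prod_nonneg fun e _ => hW0 _ _)
  have hh : (0 : ℝ) ≤ (homs H G).card := Nat.cast_nonneg _
  have hcc : ((Fintype.card (U × U) : ℕ) : ℝ) ^ (-δ) = ((Fintype.card U : ℝ) ^ (-δ)) ^ 2 := by
    rw [Fintype.card_prod]
    push_cast
    rw [Real.mul_rpow hn.le hn.le, sq]
  rw [hcc] at hk
  set n : ℝ := (Fintype.card U : ℝ)
  set h : ℝ := ((homs H G).card : ℝ)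
  set M : ℝ := ((arcs G).card : ℝ)
  have hnd : 0 < n ^ (-δ) := Real.rpow_pos_of_pos hn _
  have e1 : (Real.sqrt c * n ^ (-δ) * (A ^ (a * d) * M)) ^ 2 ≤ (h * A) ^ 2 := by
    calc (Real.sqrt c * n ^ (-δ) * (A ^ (a * d) * M)) ^ 2
        = c * (n ^ (-δ)) ^ 2 * (A ^ (a * d) * M) ^ 2 := by
          rw [mul_pow, mul_pow, Real.sq_sqrt hc.le]
      _ ≤ D1 * D2 * (A ^ (a * d) * M) ^ 2 := mul_le_mul_of_nonneg_right hk (sq_nonneg _)
      _ = (D1 * A ^ (a * d) * M) * (D2 * A ^ (a * d) * M) := by ring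
      _ ≤ (h * A) * (h * A) := mul_le_mul hD1 hD2 (by positivity) (by positivity)
      _ = (h * A) ^ 2 := by ring
  have e2 : Real.sqrt c * n ^ (-δ) * (A ^ (a * d) * M) ≤ h * A :=
    (pow_le_pow_iff_left₀ (by positivity) (by positivity) two_ne_zero).1 e1
  have e3 : Real.sqrt c * n ^ (-δ) * (A ^ (a * d - 1) * M) ≤ h := by
    have : A ^ (a * d) = A ^ (a * d - 1) * A := by rw [← pow_succ]; congr 1; omega
    rw [this] at e2
    have : Real.sqrt c * n ^ (-δ) * (A ^ (a * d - 1) * M) * A ≤ h * A := by linarith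
    exact le_of_mul_le_mul_right this hA
  have e4 : (n ^ κ) ^ (2 * (a * d - 1)) = n ^ (2 * (a * d - a)) := by
    rw [← Real.rpow_natCast (n ^ κ), ← Real.rpow_mul hn.le, ← Real.rpow_natCast n]
    congr 1
    push_cast
    have := hκ1
    linarith
  have e5 : M ^ (a * d - 1) / n ^ (2 * (a * d - a)) ≤ A ^ (a * d - 1) := by
    rw [← e4, pow_mul, ← div_pow]
    exact pow_le_pow_left₀ (by positivity) hA1 _
  rw [div_le_iff₀ (by positivity)] at e5
  calc Real.sqrt c * n ^ (-δ) * M ^ (a * d)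
      = Real.sqrt c * n ^ (-δ) * (M ^ (a * d - 1) * M) := by
        rw [← pow_succ]; congr 2; omega
    _ ≤ Real.sqrt c * n ^ (-δ) * (A ^ (a * d - 1) * n ^ (2 * (a * d - a)) * M) := by gcongr
    _ = Real.sqrt c * n ^ (-δ) * (A ^ (a * d - 1) * M) * n ^ (2 * (a * d - a)) := by ring
    _ ≤ h * n ^ (2 * (a * d - a)) := by gcongr

omit [DecidableEq V] in
/-- from arc-transitive graphs to all graphs -/
theorem step_all {e k : ℕ} {C δ : ℝ} (hC : 0 < C) (hδ : 0 ≤ δ)
    (hyp : ∀ (U : Type) [Fintype U] [Nonempty U] (G : SimpleGraph U), ArcTransitive G →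
      0 < (arcs G).card → C * (Fintype.card U : ℝ) ^ (-δ) * ((arcs G).card : ℝ) ^ e ≤
      (homs H G).card * (Fintype.card U : ℝ) ^ k)
    {U : Type} [Fintype U] [Nonempty U] (G : SimpleGraph U) (hM : 0 < (arcs G).card) :
    (Fintype.card U : ℝ) ^ (-δ) * ((arcs G).card : ℝ) ^ e ≤
      (homs H G).card * (Fintype.card U : ℝ) ^ k := by
  have hn : (0 : ℝ) < Fintype.card U := by exact_mod_cast Fintype.card_pos
  refine le_of_pow_le (K := 2 * (arcs G).card * e) (by positivity) hC fun N hN => ?_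
  obtain ⟨U', _, G', hG', hsub, hpop⟩ := exists_typeClass G hN
  have hM' : 0 < (arcs G').card := by
    by_contra h0
    have h0 : (arcs G').card = 0 := by omega
    rw [h0, zero_mul] at hpop
    have : 0 < (arcs G).card ^ (2 * N) := by positivity
    omega
  have hne : Nonempty U' := by
    obtain ⟨p, _⟩ := Finset.card_pos.1 hM'
    exact ⟨p.1⟩
  have h1 := hyp U' G' hG' hM'
  have h2 : ((Fintype.card U' : ℕ) : ℝ) ≤ (Fintype.card U : ℝ) ^ (2 * N) := by
    exact_mod_cast hsub.card_le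
  have h3 : ((homs H G').card : ℝ) ≤ ((homs H G).card : ℝ) ^ (2 * N) := by
    exact_mod_cast hsub.homs_le (H := H)
  have h4 : ((arcs G).card : ℝ) ^ (2 * N) ≤
      ((arcs G').card : ℝ) * ((N : ℝ) + 1) ^ (2 * (arcs G).card) := by
    exact_mod_cast hpop
  have hn' : (0 : ℝ) < Fintype.card U' := by exact_mod_cast Fintype.card_pos
  have h5 : ((Fintype.card U : ℝ) ^ (2 * N)) ^ (-δ) ≤ (Fintype.card U' : ℝ) ^ (-δ) :=
    Real.rpow_le_rpow_of_nonpos hn' h2 (by linarith)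
  have h6 : ((Fintype.card U : ℝ) ^ (-δ)) ^ (2 * N) = ((Fintype.card U : ℝ) ^ (2 * N)) ^ (-δ) := by
    rw [← Real.rpow_natCast (_ ^ (-δ)), ← Real.rpow_natCast, ← Real.rpow_mul hn.le,
      ← Real.rpow_mul hn.le, mul_comm]
  calc C * ((Fintype.card U : ℝ) ^ (-δ) * ((arcs G).card : ℝ) ^ e) ^ (2 * N)
      = C * ((Fintype.card U : ℝ) ^ (2 * N)) ^ (-δ) * (((arcs G).card : ℝ) ^ (2 * N)) ^ e := by
        rw [mul_pow, h6, ← pow_mul, ← pow_mul, mul_comm e]
        ring
    _ ≤ C * (Fintype.card U' : ℝ) ^ (-δ) *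
        (((arcs G').card : ℝ) * ((N : ℝ) + 1) ^ (2 * (arcs G).card)) ^ e := by gcongr
    _ = C * (Fintype.card U' : ℝ) ^ (-δ) * ((arcs G').card : ℝ) ^ e *
        ((N : ℝ) + 1) ^ (2 * (arcs G).card * e) := by
        rw [mul_pow, ← pow_mul]
        ring
    _ ≤ (homs H G').card * (Fintype.card U' : ℝ) ^ k *
        ((N : ℝ) + 1) ^ (2 * (arcs G).card * e) := by gcongr
    _ ≤ ((homs H G).card : ℝ) ^ (2 * N) * ((Fintype.card U : ℝ) ^ (2 * N)) ^ k *
        ((N : ℝ) + 1) ^ (2 * (arcs G).card * e) := by gcongr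
    _ = _ := by
        rw [mul_pow, ← pow_mul, ← pow_mul, mul_comm k]
        ring

/-- **regular graphs** -/
theorem regular_main (hs : ∀ u v, H.Adj u v → s u ≠ s v) {d a : ℕ} (hd0 : 2 ≤ d)
    (hd : ∀ v, Nat.card {u // H.Adj v u} = d) (ha0 : 1 ≤ a) (ha : Fintype.card V = 2 * a)
    (hyp : ∀ δ : ℝ, 0 < δ → ∃ c : ℝ, 0 < c ∧
      ∀ (U : Type) [Fintype U] [Nonempty U] (r : U → ℝ) (W : Sym2 U → ℝ),
      Bounded ((a * d - 1) / (a * (d - 1))) 1 r W →
        c * (Fintype.card U : ℝ) ^ (-δ) ≤ kernelDensity H r W)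
    {U : Type} [Fintype U] [Nonempty U] (G : SimpleGraph U) :
    edgeDensity G ^ Nat.card H.edgeSet ≤ homDensity H G := by
  have hn : (0 : ℝ) < Fintype.card U := by exact_mod_cast Fintype.card_pos
  have hE : Nat.card H.edgeSet = a * d := by
    rw [← card_side hs (by omega) hd ha, card_sideEdges H s hs]
  have h4 : 1 ≤ a * d := by nlinarith
  rw [edgeDensity_eq_arcs, homDensity_eq_homs, hE, ha, div_pow,
    div_le_div_iff₀ (by positivity) (by positivity)]
  rcases Nat.eq_zero_or_pos (arcs G).card with h0 | hM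
  · rw [h0, Nat.cast_zero, zero_pow (by omega), zero_mul]
    positivity
  have key : ∀ δ : ℝ, 0 < δ → (Fintype.card U : ℝ) ^ (-δ) * ((arcs G).card : ℝ) ^ (a * d) ≤
      (homs H G).card * (Fintype.card U : ℝ) ^ (2 * (a * d - a)) := by
    intro δ hδ
    obtain ⟨c, hc, hyp⟩ := hyp δ hδ
    exact step_all (Real.sqrt_pos.2 hc) hδ.le
      (fun U _ _ G hG hM => step_transitive hs hd0 hd ha0 ha hc hyp hG hM) G hM
  have hlim : ((arcs G).card : ℝ) ^ (a * d) ≤
      (homs H G).card * (Fintype.card U : ℝ) ^ (2 * (a * d - a)) := by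
    have ht : Filter.Tendsto (fun k : ℕ => (Fintype.card U : ℝ) ^ (-(1 / ((k : ℝ) + 1))) *
        ((arcs G).card : ℝ) ^ (a * d)) Filter.atTop
        (nhds ((Fintype.card U : ℝ) ^ (-(0 : ℝ)) * ((arcs G).card : ℝ) ^ (a * d))) := by
      refine Filter.Tendsto.mul_const _ ?_
      exact Filter.Tendsto.rpow tendsto_const_nhds tendsto_one_div_add_atTop_nhds_zero_nat.neg
        (Or.inl hn.ne')
    rw [neg_zero, Real.rpow_zero, one_mul] at ht
    exact le_of_tendsto' ht fun k => key _ (by positivity)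
  have h3 : (a : ℕ) ≤ a * d := Nat.le_mul_of_pos_right a (by omega)
  calc ((arcs G).card : ℝ) ^ (a * d) * (Fintype.card U : ℝ) ^ (2 * a)
      ≤ (homs H G).card * (Fintype.card U : ℝ) ^ (2 * (a * d - a)) *
        (Fintype.card U : ℝ) ^ (2 * a) := by gcongr
    _ = (homs H G).card * ((Fintype.card U : ℝ) ^ 2) ^ (a * d) := by
        rw [mul_assoc, ← pow_add, ← pow_mul]
        congr 3
        omega

/-- the converse -/
theorem regular_conv (hs : ∀ u v, H.Adj u v → s u ≠ s v)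
    (hS : ∀ (X : Type) [Finite X] [Nonempty X] (Γ : SimpleGraph X),
      edgeDensity Γ ^ Nat.card H.edgeSet ≤ homDensity H Γ) {q : ℝ} {U : Type} [Fintype U]
    {r : U → ℝ} {W : Sym2 U → ℝ} (hW : Bounded q 1 r W) : 1 ≤ kernelDensity H r W := by
  have h := H398.wsid_of_ordinary hs hS U r (fun x y => W s(x, y)) hW.r_nonneg hW.r_sum
    (fun x y => hW.nonneg _) (fun x y => by rw [Sym2.eq_swap])
  rw [hW.mean, one_pow] at h
  rw [kernelDensity_eq hs]
  exact h

end Vale.Agent.P050.H868
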