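import Vale.Agent.P050.H868.Defs
import Mathlib.Analysis.Calculus.DerivativeTest
import Mathlib.Analysis.SpecialFunctions.Pow.Deriv
import Mathlib.Analysis.Convex.SpecificFunctions.Basic

/-!
Contractive kernels have all degrees one and a spectral gap.
-/

namespace Vale.Agent.P050.H868

open Finset Filter Topology

theorem rpow_taylor {q K : ℝ} (hK : q * (q - 1) / 2 < K) :
    ∀ᶠ u : ℝ in 𝓝 0, (1 + u) ^ q ≤ 1 + q * u + K * u ^ 2 := by
  set F : ℝ → ℝ := fun u => 1 + q * u + K * u ^ 2 - (1 + u) ^ q with hF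
  have h1 : ∀ u : ℝ, 0 < 1 + u → HasDerivAt F (q + 2 * K * u - q * (1 + u) ^ (q - 1)) u := by
    intro u hu
    have h2 : HasDerivAt (fun u : ℝ => (1 + u) ^ q) (1 * q * (1 + u) ^ (q - 1)) u :=
      ((hasDerivAt_id u).const_add 1).rpow_const (Or.inl hu.ne')
    have h3 : HasDerivAt (fun u : ℝ => 1 + q * u + K * u ^ 2) (q * 1 + K * (2 * u)) u := by
      have := ((hasDerivAt_id u).const_mul q).const_add 1
      have h4 : HasDerivAt (fun u : ℝ => K * u ^ 2) (K * (2 * u)) u := by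
        simpa using (hasDerivAt_pow 2 u).const_mul K
      exact this.add h4
    refine (h3.sub h2).congr_deriv ?_
    ring
  have hpos : ∀ᶠ u : ℝ in 𝓝 0, 0 < 1 + u := by
    have : Tendsto (fun u : ℝ => 1 + u) (𝓝 0) (𝓝 (1 + 0)) := tendsto_const_nhds.add tendsto_id
    rw [add_zero] at this
    exact this.eventually (lt_mem_nhds one_pos)
  have h2 : deriv F =ᶠ[𝓝 0] fun u => q + 2 * K * u - q * (1 + u) ^ (q - 1) :=
    hpos.mono fun u hu => (h1 u hu).deriv
  have h3 : HasDerivAt (fun u : ℝ => q + 2 * K * u - q * (1 + u) ^ (q - 1))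
      (2 * K - q * (q - 1)) 0 := by
    have h4 : HasDerivAt (fun u : ℝ => (1 + u) ^ (q - 1))
        (1 * (q - 1) * (1 + (0 : ℝ)) ^ (q - 1 - 1)) 0 :=
      ((hasDerivAt_id (0 : ℝ)).const_add 1).rpow_const (Or.inl (by norm_num))
    have h5 : HasDerivAt (fun u : ℝ => q + 2 * K * u) (2 * K * 1) 0 :=
      ((hasDerivAt_id (0 : ℝ)).const_mul (2 * K)).const_add q
    refine (h5.sub (h4.const_mul q)).congr_deriv ?_
    rw [add_zero, Real.one_rpow]
    ring
  have h4 : deriv (deriv F) 0 > 0 := by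
    rw [h2.deriv_eq, h3.deriv]
    linarith
  have h5 : deriv F 0 = 0 := by
    rw [(h1 0 (by norm_num)).deriv]
    simp
  have h6 := isLocalMin_of_deriv_deriv_pos h4 h5 (h1 0 (by norm_num)).continuousAt
  have h7 : F 0 = 0 := by simp [hF]
  filter_upwards [h6] with u hu
  rw [h7] at hu
  simp only [hF] at hu
  linarith

variable {U : Type} [Fintype U]

/-- the norm of `1 + ε h` -/
theorem norm_le {q K : ℝ} (hq : 1 ≤ q) (hK : q * (q - 1) / 2 < K) {r : U → ℝ}
    (hr : ∀ x, 0 ≤ r x) (hr1 : ∑ x, r x = 1) (h : U → ℝ) :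
    ∀ᶠ ε : ℝ in 𝓝 0, (∀ x, 0 ≤ 1 + ε * h x) ∧
      (∑ x, r x * (1 + ε * h x) ^ q) ^ (1 / q) ≤
        1 + ε * ∑ x, r x * h x + K / q * ε ^ 2 * ∑ x, r x * h x ^ 2 := by
  have hq0 : 0 < q := by linarith
  have ht : ∀ x, Tendsto (fun ε : ℝ => ε * h x) (𝓝 0) (𝓝 0) := by
    intro x
    have := (tendsto_id (α := ℝ) (x := 𝓝 0)).mul_const (h x)
    simpa using this
  have h1 : ∀ᶠ ε : ℝ in 𝓝 0, ∀ x, (1 + ε * h x) ^ q ≤ 1 + q * (ε * h x) + K * (ε * h x) ^ 2 :=
    eventually_all.2 fun x => (ht x).eventually (rpow_taylor hK)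
  have h2 : ∀ᶠ ε : ℝ in 𝓝 0, ∀ x, 0 ≤ 1 + ε * h x := by
    refine eventually_all.2 fun x => ?_
    have := (ht x).eventually (lt_mem_nhds (show (-1 : ℝ) < 0 by norm_num))
    exact this.mono fun ε hε => by linarith
  filter_upwards [h1, h2] with ε h1 h2
  refine ⟨h2, ?_⟩
  have h3 : ∑ x, r x * (1 + ε * h x) ^ q ≤
      1 + q * (ε * ∑ x, r x * h x) + K * ε ^ 2 * ∑ x, r x * h x ^ 2 := by
    calc ∑ x, r x * (1 + ε * h x) ^ q
        ≤ ∑ x, r x * (1 + q * (ε * h x) + K * (ε * h x) ^ 2) :=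
          Finset.sum_le_sum fun x _ => mul_le_mul_of_nonneg_left (h1 x) (hr x)
      _ = ∑ x, (r x + q * ε * (r x * h x) + K * ε ^ 2 * (r x * h x ^ 2)) :=
          Finset.sum_congr rfl fun x _ => by ring
      _ = _ := by
          rw [Finset.sum_add_distrib, Finset.sum_add_distrib, ← Finset.mul_sum, ← Finset.mul_sum,
            hr1]
          ring
  have h4 : 0 ≤ ∑ x, r x * (1 + ε * h x) ^ q :=
    Finset.sum_nonneg fun x _ => mul_nonneg (hr x) (Real.rpow_nonneg (h2 x) _)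
  have h5 : (∑ x, r x * (1 + ε * h x) ^ q) ^ (1 / q) ≤
      1 + 1 / q * (∑ x, r x * (1 + ε * h x) ^ q - 1) := by
    have h6 := rpow_one_add_le_one_add_mul_self (s := ∑ x, r x * (1 + ε * h x) ^ q - 1)
      (p := 1 / q) (by linarith) (by positivity) (by rw [div_le_one hq0]; exact hq)
    rw [add_sub_cancel] at h6
    exact h6
  refine h5.trans ?_
  have h6 : 1 / q * (∑ x, r x * (1 + ε * h x) ^ q - 1) ≤
      1 / q * (q * (ε * ∑ x, r x * h x) + K * ε ^ 2 * ∑ x, r x * h x ^ 2) :=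
    mul_le_mul_of_nonneg_left (by linarith) (by positivity)
  have h7 : 1 / q * (q * (ε * ∑ x, r x * h x) + K * ε ^ 2 * ∑ x, r x * h x ^ 2) =
      ε * ∑ x, r x * h x + K / q * ε ^ 2 * ∑ x, r x * h x ^ 2 := by
    field_simp
  linarith

theorem eventually_zero {P : ℝ → Prop} (h : ∀ᶠ ε : ℝ in 𝓝 0, P ε) :
    ∃ ρ : ℝ, 0 < ρ ∧ ∀ k : ℕ, P (ρ / (k + 1)) ∧ P (-(ρ / (k + 1))) := by
  obtain ⟨ρ, hρ, hP⟩ := Metric.eventually_nhds_iff.1 h
  have h1 : ∀ k : ℕ, ρ / 2 / (k + 1) < ρ := by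
    intro k
    rw [div_lt_iff₀ (by positivity)]
    have : (0 : ℝ) ≤ k := Nat.cast_nonneg _
    nlinarith
  refine ⟨ρ / 2, by positivity, fun k => ⟨hP ?_, hP ?_⟩⟩
  · rw [Real.dist_eq, sub_zero, abs_of_pos (by positivity)]
    exact h1 k
  · rw [Real.dist_eq, sub_zero, abs_neg, abs_of_pos (by positivity)]
    exact h1 k

theorem tendsto_rho (ρ : ℝ) : Tendsto (fun k : ℕ => ρ / ((k : ℝ) + 1)) atTop (𝓝 0) := by
  have := (tendsto_one_div_add_atTop_nhds_zero_nat (𝕜 := ℝ)).const_mul ρ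
  rw [mul_zero] at this
  refine this.congr fun k => ?_
  ring

variable {q : ℝ} {r : U → ℝ} {W : Sym2 U → ℝ}

theorem Bounded.contr (hW : Bounded q 1 r W) (f g : U → ℝ) (hf : ∀ x, 0 ≤ f x)
    (hg : ∀ x, 0 ≤ g x) : ∑ x, ∑ y, r x * r y * (f x * W s(x, y) * g y) ≤
      (∑ x, r x * f x ^ q) ^ (1 / q) * (∑ x, r x * g x ^ q) ^ (1 / q) := by
  have := hW.norm f g hf hg
  rwa [one_mul] at this

/-- the bilinear form -/
noncomputable def bil (r : U → ℝ) (W : Sym2 U → ℝ) (f g : U → ℝ) : ℝ :=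
  ∑ x, ∑ y, r x * r y * (f x * W s(x, y) * g y)

theorem bil_expand (hW : Bounded q 1 r W) (h k : U → ℝ) (ε : ℝ) :
    bil r W (fun x => 1 + ε * h x) (fun x => 1 + ε * k x) =
      1 + ε * (bil r W h fun _ => 1) + ε * (bil r W k fun _ => 1) + ε ^ 2 * bil r W h k := by
  have h2 : bil r W k (fun _ => 1) = ∑ x, ∑ y, r x * r y * (1 * W s(x, y) * k y) := by
    unfold bil
    rw [Finset.sum_comm]
    refine Finset.sum_congr rfl fun x _ => Finset.sum_congr rfl fun y _ => ?_
    rw [Sym2.eq_swap]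
    ring
  rw [h2]
  have h3 : bil r W (fun x => 1 + ε * h x) (fun x => 1 + ε * k x) =
      (∑ x, ∑ y, r x * r y * W s(x, y)) + ε * (bil r W h fun _ => 1) +
      ε * (∑ x, ∑ y, r x * r y * (1 * W s(x, y) * k y)) + ε ^ 2 * bil r W h k := by
    unfold bil
    simp only [Finset.mul_sum, ← Finset.sum_add_distrib]
    refine Finset.sum_congr rfl fun x _ => Finset.sum_congr rfl fun y _ => ?_
    ring
  rw [h3, hW.mean]

theorem bil_one (hq : 1 ≤ q) (hW : Bounded q 1 r W) (h : U → ℝ) :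
    bil r W h (fun _ => 1) = ∑ x, r x * h x := by
  have hq0 : 0 < q := by linarith
  set K : ℝ := q * (q - 1) / 2 + 1 with hKd
  have hn := norm_le hq (show q * (q - 1) / 2 < K by linarith) hW.r_nonneg hW.r_sum h
  obtain ⟨ρ, hρ, hP⟩ := eventually_zero hn
  set a := bil r W h (fun _ => 1) - ∑ x, r x * h x with ha
  set C := K / q * ∑ x, r x * h x ^ 2 with hC
  have hin : ∀ ε : ℝ, ((∀ x, 0 ≤ 1 + ε * h x) ∧
      (∑ x, r x * (1 + ε * h x) ^ q) ^ (1 / q) ≤
        1 + ε * ∑ x, r x * h x + K / q * ε ^ 2 * ∑ x, r x * h x ^ 2) → ε * a ≤ C * ε ^ 2 := by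
    rintro ε ⟨h0, h1⟩
    have h2 := hW.contr (fun x => 1 + ε * h x) (fun _ => 1) h0 (fun _ => zero_le_one)
    have h3 := bil_expand hW h (fun _ => 0) ε
    have h4 : bil r W (fun _ => 0) (fun _ => 1) = 0 := by simp [bil]
    have h5 : bil r W h (fun _ => 0) = 0 := by simp [bil]
    rw [h4, h5] at h3
    simp only [mul_zero, add_zero] at h3
    simp only [Real.one_rpow, mul_one, hW.r_sum] at h2
    change bil r W (fun x => 1 + ε * h x) (fun _ => 1) = _ at h3
    have h6 : bil r W (fun x => 1 + ε * h x) (fun _ => 1) ≤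
        (∑ x, r x * (1 + ε * h x) ^ q) ^ (1 / q) := by
      unfold bil
      simp only [mul_one]
      exact h2
    rw [h3] at h6
    have h7 := h6.trans h1
    rw [ha, hC]
    linarith
  have ht := tendsto_rho ρ
  have h1 : a ≤ 0 := by
    have ht' : Tendsto (fun k : ℕ => C * (ρ / ((k : ℝ) + 1))) atTop (𝓝 (C * 0)) := ht.const_mul C
    rw [mul_zero] at ht'
    refine ge_of_tendsto' ht' fun k => ?_
    have hε : 0 < ρ / ((k : ℝ) + 1) := by positivity
    have := hin _ (hP k).1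
    refine le_of_mul_le_mul_left ?_ hε
    linarith
  have h2 : 0 ≤ a := by
    have ht' : Tendsto (fun k : ℕ => C * -(ρ / ((k : ℝ) + 1))) atTop (𝓝 (C * -0)) :=
      ht.neg.const_mul C
    rw [neg_zero, mul_zero] at ht'
    refine le_of_tendsto' ht' fun k => ?_
    have hε : 0 < ρ / ((k : ℝ) + 1) := by positivity
    have := hin _ (hP k).2
    refine le_of_mul_le_mul_left ?_ hε
    linarith
  have h3 : a = 0 := le_antisymm h1 h2
  rw [ha] at h3
  linarith

/-- all degrees are one -/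
theorem degree_one (hq : 1 ≤ q) (hW : Bounded q 1 r W) {x : U} (hx : 0 < r x) :
    ∑ y, r y * W s(x, y) = 1 := by
  classical
  have h := bil_one hq hW (Pi.single x 1)
  unfold bil at h
  have h1 : ∑ z, ∑ y, r z * r y * ((Pi.single x (1 : ℝ) : U → ℝ) z * W s(z, y) * 1) =
      r x * ∑ y, r y * W s(x, y) := by
    rw [Finset.sum_eq_single x, Finset.mul_sum]
    · refine Finset.sum_congr rfl fun y _ => ?_
      rw [Pi.single_eq_same]
      ring
    · intro z _ hz
      refine Finset.sum_eq_zero fun y _ => ?_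
      rw [Pi.single_eq_of_ne hz]
      ring
    · intro hx
      exact absurd (mem_univ x) hx
  have h2 : ∑ z, r z * (Pi.single x (1 : ℝ) : U → ℝ) z = r x := by
    rw [Finset.sum_eq_single x]
    · rw [Pi.single_eq_same, mul_one]
    · intro z _ hz
      rw [Pi.single_eq_of_ne hz, mul_zero]
    · intro hx
      exact absurd (mem_univ x) hx
  rw [h1, h2] at h
  exact mul_left_cancel₀ hx.ne' (h.trans (mul_one _).symm)

theorem bil_le (hq : 1 ≤ q) (hW : Bounded q 1 r W) {h k : U → ℝ} (hh : ∑ x, r x * h x = 0)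
    (hk : ∑ x, r x * k x = 0) :
    bil r W h k ≤ (q - 1) / 2 * (∑ x, r x * h x ^ 2 + ∑ x, r x * k x ^ 2) := by
  have hq0 : 0 < q := by linarith
  set a := ∑ x, r x * h x ^ 2 with ha
  set b := ∑ x, r x * k x ^ 2 with hb
  have ha0 : 0 ≤ a := Finset.sum_nonneg fun x _ => mul_nonneg (hW.r_nonneg x) (sq_nonneg _)
  have hb0 : 0 ≤ b := Finset.sum_nonneg fun x _ => mul_nonneg (hW.r_nonneg x) (sq_nonneg _)
  have key : ∀ τ : ℝ, 0 < τ → bil r W h k ≤ (q * (q - 1) / 2 + τ) / q * (a + b) := by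
    intro τ hτ
    set K := q * (q - 1) / 2 + τ with hK
    have h1 := norm_le hq (show q * (q - 1) / 2 < K by linarith) hW.r_nonneg hW.r_sum h
    have h2 := norm_le hq (show q * (q - 1) / 2 < K by linarith) hW.r_nonneg hW.r_sum k
    obtain ⟨ρ, hρ, hP⟩ := eventually_zero (h1.and h2)
    have hK0 : 0 ≤ K := by
      have : 0 ≤ q * (q - 1) := mul_nonneg hq0.le (by linarith)
      linarith
    have hin : ∀ j : ℕ, bil r W h k ≤
        K / q * (a + b) + (K / q * a) * (K / q * b) * (ρ / ((j : ℝ) + 1)) ^ 2 := by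
      intro j
      obtain ⟨⟨h3, h4⟩, ⟨h5, h6⟩⟩ := (hP j).1
      set ε := ρ / ((j : ℝ) + 1) with hε
      have hε0 : 0 < ε := by positivity
      have h7 := hW.contr _ _ h3 h5
      have h8 := bil_expand hW h k ε
      rw [bil_one hq hW h, bil_one hq hW k, hh, hk] at h8
      rw [hh] at h4
      rw [hk] at h6
      have h9 : 1 + ε ^ 2 * bil r W h k ≤ (1 + K / q * ε ^ 2 * a) * (1 + K / q * ε ^ 2 * b) := by
        have h10 : bil r W (fun x => 1 + ε * h x) (fun x => 1 + ε * k x) ≤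
            (1 + K / q * ε ^ 2 * a) * (1 + K / q * ε ^ 2 * b) := by
          refine h7.trans ?_
          have h11 : 0 ≤ (∑ x, r x * (1 + ε * k x) ^ q) ^ (1 / q) :=
            Real.rpow_nonneg (Finset.sum_nonneg fun x _ =>
              mul_nonneg (hW.r_nonneg x) (Real.rpow_nonneg (h5 x) _)) _
          refine mul_le_mul (by linarith) (by linarith) h11 (by positivity)
        rw [h8] at h10
        linarith
      have h10 : ε ^ 2 * bil r W h k ≤
          ε ^ 2 * (K / q * (a + b) + (K / q * a) * (K / q * b) * ε ^ 2) := by linarith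
      exact le_of_mul_le_mul_left h10 (by positivity)
    have ht : Tendsto (fun j : ℕ => K / q * (a + b) +
        (K / q * a) * (K / q * b) * (ρ / ((j : ℝ) + 1)) ^ 2) atTop
        (𝓝 (K / q * (a + b) + (K / q * a) * (K / q * b) * 0 ^ 2)) :=
      tendsto_const_nhds.add (((tendsto_rho ρ).pow 2).const_mul _)
    have h3 := ge_of_tendsto' ht hin
    simpa using h3
  refine le_of_forall_pos_le_add fun τ hτ => ?_
  have h1 := key (τ * q / (a + b + 1)) (by positivity)
  refine h1.trans ?_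
  have h2 : (q * (q - 1) / 2 + τ * q / (a + b + 1)) / q * (a + b) =
      (q - 1) / 2 * (a + b) + τ * ((a + b) / (a + b + 1)) := by
    field_simp
  rw [h2]
  have h3 : (a + b) / (a + b + 1) ≤ 1 := by
    rw [div_le_one (by positivity)]
    linarith
  nlinarith

/-- **spectral gap** -/
theorem spectral_gap (hq : 1 ≤ q) (hW : Bounded q 1 r W) {h : U → ℝ}
    (hh : ∑ x, r x * h x = 0) :
    |∑ x, ∑ y, r x * r y * (h x * W s(x, y) * h y)| ≤ (q - 1) * ∑ x, r x * h x ^ 2 := by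
  have h1 := bil_le hq hW hh hh
  have h2 := bil_le hq hW (h := h) (k := fun x => -h x) hh (by simpa using hh)
  have h3 : bil r W h (fun x => -h x) = -bil r W h h := by
    unfold bil
    rw [← Finset.sum_neg_distrib]
    refine Finset.sum_congr rfl fun x _ => ?_
    rw [← Finset.sum_neg_distrib]
    refine Finset.sum_congr rfl fun y _ => ?_
    ring
  rw [h3] at h2
  simp only [neg_sq] at h2
  change |bil r W h h| ≤ _
  rw [abs_le]
  constructor <;> linarith

end Vale.Agent.P050.H868
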