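import Vale.Agent.P050.H868.Dyadic
import Vale.Agent.P050.H868.RegMain
import Vale.Agent.P050.H868.Spec

/-!
The final forms.
-/

namespace Vale.Agent.P050.H868

open Finset

theorem log_le_rpow {τ : ℝ} (hτ : 0 < τ) :
    ∃ n₀ : ℕ, ∀ n : ℕ, n₀ ≤ n → 4 * ((Nat.log 2 n : ℝ) + 2) ^ 2 ≤ (n : ℝ) ^ τ := by
  have h2 : 0 < Real.log 2 := Real.log_pos (by norm_num)
  have h1 := (isLittleO_log_rpow_atTop (show 0 < τ / 2 by positivity)).bound
    (show 0 < Real.log 2 / 4 by positivity)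
  have h3 : ∀ᶠ x : ℝ in Filter.atTop, 8 ≤ x ^ (τ / 2) :=
    (tendsto_rpow_atTop (show 0 < τ / 2 by positivity)).eventually_ge_atTop 8
  have h4 := (tendsto_natCast_atTop_atTop (R := ℝ)).eventually (h1.and h3)
  obtain ⟨n₀, hn₀⟩ := Filter.eventually_atTop.1 h4
  refine ⟨max n₀ 1, fun n hn => ?_⟩
  obtain ⟨h5, h6⟩ := hn₀ n (le_trans (le_max_left _ _) hn)
  have hn1 : 1 ≤ n := le_trans (le_max_right _ _) hn
  have hnr : (1 : ℝ) ≤ n := by exact_mod_cast hn1
  have hlog : 0 ≤ Real.log n := Real.log_nonneg hnr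
  rw [Real.norm_of_nonneg hlog, Real.norm_of_nonneg (Real.rpow_nonneg (by positivity) _)] at h5
  have h7 : (Nat.log 2 n : ℝ) ≤ Real.log n / Real.log 2 := by
    rw [le_div_iff₀ h2, ← Real.log_pow]
    refine Real.log_le_log (by positivity) ?_
    exact_mod_cast Nat.pow_log_le_self 2 (by omega)
  have h8 : Real.log n / Real.log 2 ≤ (n : ℝ) ^ (τ / 2) / 4 := by
    rw [div_le_iff₀ h2]
    linarith
  have h9 : (Nat.log 2 n : ℝ) + 2 ≤ (n : ℝ) ^ (τ / 2) / 2 := by linarith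
  have h10 : (n : ℝ) ^ τ = ((n : ℝ) ^ (τ / 2)) ^ 2 := by
    rw [← Real.rpow_natCast, ← Real.rpow_mul (by positivity)]
    congr 1
    push_cast
    ring
  rw [h10]
  have h11 : ((Nat.log 2 n : ℝ) + 2) ^ 2 ≤ ((n : ℝ) ^ (τ / 2) / 2) ^ 2 :=
    pow_le_pow_left₀ (by positivity) h9 2
  calc 4 * ((Nat.log 2 n : ℝ) + 2) ^ 2 ≤ 4 * ((n : ℝ) ^ (τ / 2) / 2) ^ 2 := by linarith
    _ = _ := by ring

variable {V : Type} [Fintype V] {H : SimpleGraph V}

/-- all bipartite graphs, with norms -/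
theorem general_bounded {s : V → Bool} (hs : ∀ u v, H.Adj u v → s u ≠ s v) {u₀ v₀ : V}
    (huv : H.Adj u₀ v₀) {φ : ℝ} (hφ : 1 < φ) (hv : (Fintype.card V : ℝ) < 2 * φ)
    (hyp : ∀ δ : ℝ, 0 < δ → ∃ ε : ℝ, 0 < ε ∧ ∀ (U : Type) [Fintype U] [Nonempty U]
      (G : SimpleGraph U), ArcTransitive G →
      Bounded ((2 * φ - 2) / (2 * φ - Fintype.card V)) ((Fintype.card U : ℝ) ^ ε)
        (fun _ => 1 / (Fintype.card U : ℝ)) (graphKernel G) → 1 / ε ≤ Fintype.card U →
        (Fintype.card U : ℝ) ^ (-δ) * edgeDensity G ^ φ ≤ homDensity H G)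
    {U : Type} [Fintype U] [Nonempty U] (G : SimpleGraph U) :
    edgeDensity G ^ φ ≤ homDensity H G := by
  classical
  refine general_main hs huv hφ hv.le (fun δ hδ => ?_) G
  obtain ⟨ε', hε', hyp⟩ := hyp δ hδ
  obtain ⟨n₀, hn₀⟩ := log_le_rpow (show 0 < ε' / 2 by positivity)
  refine ⟨min (ε' / 2) (1 / ((n₀ : ℝ) + 1)), lt_min (by positivity) (by positivity), ?_⟩
  intro U _ _ G hG hup hlarge
  set ε := min (ε' / 2) (1 / ((n₀ : ℝ) + 1)) with hε
  have hε0 : 0 < ε := lt_min (by positivity) (by positivity)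
  have hn : (0 : ℝ) < Fintype.card U := by exact_mod_cast Fintype.card_pos
  have hn1 : (1 : ℝ) ≤ Fintype.card U := by exact_mod_cast Fintype.card_pos
  rcases Nat.eq_zero_or_pos (arcs G).card with h0 | hM
  · rw [edgeDensity_eq_arcs, homDensity_eq_homs, h0, Nat.cast_zero, zero_div,
      Real.zero_rpow (by linarith), mul_zero]
    positivity
  have hVcard : (2 : ℝ) ≤ Fintype.card V := by
    have h1 : 1 < Fintype.card V := Fintype.one_lt_card_iff.2 ⟨u₀, v₀, huv.ne⟩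
    exact_mod_cast h1
  have h1 : (n₀ : ℝ) + 1 ≤ Fintype.card U := by
    have h2 : ε ≤ 1 / ((n₀ : ℝ) + 1) := min_le_right _ _
    calc (n₀ : ℝ) + 1 = 1 / (1 / ((n₀ : ℝ) + 1)) := by rw [one_div_one_div]
      _ ≤ 1 / ε := one_div_le_one_div_of_le hε0 h2
      _ ≤ _ := hlarge
  have h2 : n₀ ≤ Fintype.card U := by
    have h3 : (n₀ : ℝ) ≤ Fintype.card U := by linarith
    exact_mod_cast h3
  have hκ : 0 < (2 * φ - Fintype.card V) / (2 * φ - 2) := div_pos (by linarith) (by linarith)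
  have hκ1 : (2 * φ - Fintype.card V) / (2 * φ - 2) ≤ 1 := by
    rw [div_le_one (by linarith)]
    linarith
  have h3 := bounded_of_upper hκ hκ1 hM hup
  rw [one_div_div] at h3
  have h4 : (Fintype.card U : ℝ) ^ ε * (4 * ((Nat.log 2 (Fintype.card U) : ℝ) + 2) ^ 2) ≤
      (Fintype.card U : ℝ) ^ ε' := by
    calc (Fintype.card U : ℝ) ^ ε * (4 * ((Nat.log 2 (Fintype.card U) : ℝ) + 2) ^ 2)
        ≤ (Fintype.card U : ℝ) ^ (ε' / 2) * (Fintype.card U : ℝ) ^ (ε' / 2) := by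
          refine mul_le_mul ?_ (hn₀ _ h2) (by positivity) (by positivity)
          exact Real.rpow_le_rpow_of_exponent_le hn1 (min_le_left _ _)
      _ = _ := by
          rw [← Real.rpow_add hn]
          congr 1
          ring
  refine hyp U G hG (h3.mono h4) ?_
  calc 1 / ε' ≤ 1 / ε := one_div_le_one_div_of_le hε0 ((min_le_left _ _).trans (by linarith))
    _ ≤ _ := hlarge

omit [Fintype V] in
/-- a 2-colouring by truth values -/
theorem exists_side (h : H.IsBipartite) : ∃ s : V → Bool, ∀ u v, H.Adj u v → s u ≠ s v := by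
  obtain ⟨C⟩ := h
  refine ⟨fun v => decide (C v = 1), fun u v huv h => ?_⟩
  have h1 := C.valid huv
  have h2 : (C u = 1) ↔ (C v = 1) := by
    simpa only [decide_eq_decide] using h
  apply h1
  generalize C u = p at h2
  generalize C v = q at h2
  revert p q
  decide

end Vale.Agent.P050.H868
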