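import Vale.Agent.P050.H868.Upper

/-!
All bipartite graphs: reduction to arc-transitive upper regular graphs.
-/

namespace Vale.Agent.P050.H868

open Finset

variable {V : Type} [Fintype V] {H : SimpleGraph V}

theorem homs_pos {s : V → Bool} (hs : ∀ u v, H.Adj u v → s u ≠ s v) {U : Type} [Fintype U]
    {G : SimpleGraph U} (hM : 0 < (arcs G).card) : 0 < (homs H G).card := by
  obtain ⟨p, hp⟩ := Finset.card_pos.1 hM
  refine Finset.card_pos.2 ⟨fun v => bif s v then p.2 else p.1, mem_homs.2 fun u v h => ?_⟩
  have h1 := mem_arcs.1 hp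
  have h2 := hs u v h
  cases hu : s u <;> cases hv : s v
  · rw [hu, hv] at h2; exact absurd rfl h2
  · exact h1
  · exact h1.symm
  · rw [hu, hv] at h2; exact absurd rfl h2

theorem transitive_bound {s : V → Bool} (hs : ∀ u v, H.Adj u v → s u ≠ s v) {u₀ v₀ : V}
    (huv : H.Adj u₀ v₀) {φ : ℝ} (hφ : 1 < φ) (hv : (Fintype.card V : ℝ) ≤ 2 * φ)
    (hyp : ∀ δ : ℝ, 0 < δ → ∃ ε : ℝ, 0 < ε ∧ ∀ (U : Type) [Fintype U] [Nonempty U]
      (G : SimpleGraph U), ArcTransitive G →
      UpperRegular ((2 * φ - Fintype.card V) / (2 * φ - 2)) ε G → 1 / ε ≤ Fintype.card U →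
        (Fintype.card U : ℝ) ^ (-δ) * edgeDensity G ^ φ ≤ homDensity H G)
    {U : Type} [Fintype U] {G : SimpleGraph U} (hG : ArcTransitive G)
    (hM : 0 < (arcs G).card) :
    φ * Real.log (arcs G).card - (2 * φ - Fintype.card V) * Real.log (Fintype.card U) ≤
      Real.log (homs H G).card := by
  set v : ℝ := (Fintype.card V : ℝ) with hvdef
  have hne := card_pos_of_arcs hM
  have hn : (0 : ℝ) < Fintype.card U := by exact_mod_cast Fintype.card_pos
  have hMr : (0 : ℝ) < (arcs G).card := by exact_mod_cast hM
  have hn1 : (0 : ℝ) ≤ Real.log (Fintype.card U) :=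
    Real.log_nonneg (by exact_mod_cast Fintype.card_pos)
  have hM1 : (0 : ℝ) ≤ Real.log (arcs G).card := Real.log_nonneg (by exact_mod_cast hM)
  have hhpos := homs_pos hs hM
  have hhr : (0 : ℝ) < (homs H G).card := by exact_mod_cast hhpos
  refine le_of_forall_pos_le_add fun τ hτ => ?_
  obtain ⟨η, hη, hyp⟩ := hyp (τ / (4 * (Real.log (Fintype.card U) + 1))) (by positivity)
  set c : ℝ := τ / (8 * φ) with hc
  have hc0 : 0 < c := by positivity
  have hφ1 : 0 < φ - 1 := by linarith
  set ρ : ℝ := (φ - 1) * η * c with hρ
  have hρ0 : 0 < ρ := by positivity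
  set ε : ℝ := min (τ / 4) (ρ / 2) with hε
  have hε0 : 0 < ε := lt_min (by positivity) (by positivity)
  have hε1 : ε ≤ τ / 4 := min_le_left _ _
  have hε2 : ε ≤ ρ / 2 := min_le_right _ _
  have hlog2 : 0 < Real.log 2 := Real.log_pos (by norm_num)
  set B : ℝ := (φ - 1) * Real.log (arcs G).card + (2 * φ - v) * Real.log 2 with hB
  obtain ⟨L1, hL1⟩ := exists_nat_ge ((ε + B) / ρ)
  obtain ⟨L2, hL2⟩ := exists_nat_ge (Real.log (1 / η) / c)
  obtain ⟨U', _, G', N, hLN, hN, hG', hsub, hM', hnear⟩ :=
    exists_near hφ hv G hM hε0 (max L1 L2)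
  have hNr : (0 : ℝ) < N := by exact_mod_cast hN
  have hne' := card_pos_of_arcs hM'
  have hn' : (0 : ℝ) < Fintype.card U' := by exact_mod_cast Fintype.card_pos
  have hMr' : (0 : ℝ) < (arcs G').card := by exact_mod_cast hM'
  have hM1' : (0 : ℝ) ≤ Real.log (arcs G').card := Real.log_nonneg (by exact_mod_cast hM')
  have hn1' : (0 : ℝ) ≤ Real.log (Fintype.card U') :=
    Real.log_nonneg (by exact_mod_cast Fintype.card_pos)
  have hhpos' := homs_pos hs hM'
  have hhr' : (0 : ℝ) < (homs H G').card := by exact_mod_cast hhpos'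
  -- averaging
  have havg : Real.log (homs H G').card + N * Real.log (arcs G).card ≤
      N * Real.log (homs H G).card + Real.log (arcs G').card := by
    have h1 : ((homs H G').card : ℝ) * ((arcs G).card : ℝ) ^ N ≤
        ((homs H G).card : ℝ) ^ N * (arcs G').card := by exact_mod_cast Sub.avg hG huv hsub
    have h2 := Real.log_le_log (by positivity) h1
    rw [Real.log_mul (by positivity) (by positivity), Real.log_mul (by positivity) (by positivity),
      Real.log_pow, Real.log_pow] at h2
    exact h2
  have hself := hnear U G 1 le_rfl (Sub.refl G) hM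
  rw [Nat.cast_one, div_one] at hself
  have hself' : N * ff φ v G ≤ ff φ v G' + N * ε := by
    have := mul_le_mul_of_nonneg_left hself hNr.le
    rw [mul_add, mul_div_cancel₀ _ hNr.ne'] at this
    exact this
  have hlogn : Real.log (Fintype.card U') ≤ N * Real.log (Fintype.card U) := by
    have h4 : ((Fintype.card U' : ℕ) : ℝ) ≤ (Fintype.card U : ℝ) ^ N := by
      exact_mod_cast hsub.card_le
    have h5 := Real.log_le_log (by exact_mod_cast Fintype.card_pos) h4
    rwa [Real.log_pow] at h5
  have hffG : ff φ v G = (φ - 1) * Real.log (arcs G).card -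
    (2 * φ - v) * Real.log (Fintype.card U) := rfl
  have hffG' : ff φ v G' = (φ - 1) * Real.log (arcs G').card -
    (2 * φ - v) * Real.log (Fintype.card U') := rfl
  rcases le_or_gt (c * N) (Real.log (Fintype.card U')) with hA | hBc
  · -- many vertices
    have hN1 : (ε + B) / ρ ≤ N := hL1.trans (by exact_mod_cast (le_max_left L1 L2).trans hLN)
    have hN2 : Real.log (1 / η) / c ≤ N := hL2.trans
      (by exact_mod_cast (le_max_right L1 L2).trans hLN)
    rw [div_le_iff₀ hρ0] at hN1
    rw [div_le_iff₀ hc0] at hN2
    have hup : UpperRegular ((2 * φ - v) / (2 * φ - 2)) η G' := by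
      refine upper_of_near hφ hv hM hN hsub hM' hnear ?_
      have h1 : 2 * N * ε ≤ N * ρ := by
        have := mul_le_mul_of_nonneg_left hε2 (show (0 : ℝ) ≤ 2 * N by positivity)
        linarith
      have h2 : 2 * (N * ρ) ≤ (2 * φ - 2) * (η * Real.log (Fintype.card U')) := by
        have h3 : (2 * φ - 2) * η * (c * N) ≤
            (2 * φ - 2) * η * Real.log (Fintype.card U') :=
          mul_le_mul_of_nonneg_left hA (mul_nonneg (by linarith) hη.le)
        rw [hρ]
        linarith
      linarith
    have hlarge : 1 / η ≤ Fintype.card U' := by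
      have h1 : Real.log (1 / η) ≤ Real.log (Fintype.card U') := by linarith
      exact (Real.log_le_log_iff (by positivity) hn').1 h1
    have h1 := hyp U' G' hG' hup hlarge
    rw [edgeDensity_eq_arcs, homDensity_eq_homs] at h1
    have h2 := Real.log_le_log (by positivity) h1
    rw [Real.log_mul (by positivity) (by positivity), Real.log_rpow hn', Real.log_rpow
      (by positivity), Real.log_div (by positivity) (by positivity), Real.log_div (by positivity)
      (by positivity), Real.log_pow, Real.log_pow] at h2
    push_cast at h2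
    rw [← hvdef] at h2
    have h3 : τ / (4 * (Real.log (Fintype.card U) + 1)) * Real.log (Fintype.card U') ≤
        N * (τ / 4) := by
      calc τ / (4 * (Real.log (Fintype.card U) + 1)) * Real.log (Fintype.card U')
          ≤ τ / (4 * (Real.log (Fintype.card U) + 1)) * (N * Real.log (Fintype.card U)) := by
            gcongr
        _ ≤ τ / (4 * (Real.log (Fintype.card U) + 1)) * (N * (Real.log (Fintype.card U) + 1)) := by
            gcongr
            linarith
        _ = N * (τ / 4) := by field_simp
    have h4 : N * (φ * Real.log (arcs G).card - (2 * φ - v) * Real.log (Fintype.card U)) ≤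
        N * (Real.log (homs H G).card + τ) := by
      rw [hffG] at hself'
      rw [hffG'] at hself'
      have h5 : N * ε ≤ N * (τ / 4) := mul_le_mul_of_nonneg_left hε1 hNr.le
      have h6 : 0 ≤ N * τ := by positivity
      linarith
    exact le_of_mul_le_mul_left h4 hNr
  · -- few vertices
    have h1 : Real.log (arcs G').card ≤ 2 * Real.log (Fintype.card U') := by
      have h2 : (arcs G').card ≤ Fintype.card U' ^ 2 := by
        calc (arcs G').card ≤ Fintype.card (U' × U') := Finset.card_le_univ _
          _ = Fintype.card U' ^ 2 := by rw [Fintype.card_prod, sq]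
      have h3 : ((arcs G').card : ℝ) ≤ (Fintype.card U' : ℝ) ^ 2 := by exact_mod_cast h2
      have h4 := Real.log_le_log hMr' h3
      rw [Real.log_pow] at h4
      push_cast at h4
      exact h4
    have h2 : 0 ≤ Real.log (homs H G').card := Real.log_nonneg (by exact_mod_cast hhpos')
    have h3 : 0 ≤ (2 * φ - v) * Real.log (Fintype.card U') := mul_nonneg (by linarith) hn1'
    have h4 : (φ - 1) * Real.log (arcs G').card ≤ (φ - 1) * (2 * (c * N)) :=
      mul_le_mul_of_nonneg_left (by linarith) hφ1.le
    have h5 : 2 * φ * (c * N) = N * (τ / 4) := by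
      rw [hc]; field_simp; ring
    have h6 : N * (φ * Real.log (arcs G).card - (2 * φ - v) * Real.log (Fintype.card U)) ≤
        N * (Real.log (homs H G).card + τ) := by
      rw [hffG] at hself'
      rw [hffG'] at hself'
      have h7 : N * ε ≤ N * (τ / 4) := mul_le_mul_of_nonneg_left hε1 hNr.le
      have h8 : 0 ≤ N * τ := by positivity
      linarith
    exact le_of_mul_le_mul_left h6 hNr

/-- **All graphs.** -/
theorem general_main {s : V → Bool} (hs : ∀ u v, H.Adj u v → s u ≠ s v) {u₀ v₀ : V}
    (huv : H.Adj u₀ v₀) {φ : ℝ} (hφ : 1 < φ) (hv : (Fintype.card V : ℝ) ≤ 2 * φ)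
    (hyp : ∀ δ : ℝ, 0 < δ → ∃ ε : ℝ, 0 < ε ∧ ∀ (U : Type) [Fintype U] [Nonempty U]
      (G : SimpleGraph U), ArcTransitive G →
      UpperRegular ((2 * φ - Fintype.card V) / (2 * φ - 2)) ε G → 1 / ε ≤ Fintype.card U →
        (Fintype.card U : ℝ) ^ (-δ) * edgeDensity G ^ φ ≤ homDensity H G)
    {U : Type} [Fintype U] [Nonempty U] (G : SimpleGraph U) :
    edgeDensity G ^ φ ≤ homDensity H G := by
  have hn : (0 : ℝ) < Fintype.card U := by exact_mod_cast Fintype.card_pos
  rw [edgeDensity_eq_arcs, homDensity_eq_homs]
  rcases Nat.eq_zero_or_pos (arcs G).card with h0 | hM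
  · rw [h0, Nat.cast_zero, zero_div, Real.zero_rpow (by linarith)]
    positivity
  have hMr : (0 : ℝ) < (arcs G).card := by exact_mod_cast hM
  have hhpos := homs_pos hs hM
  have hhr : (0 : ℝ) < (homs H G).card := by exact_mod_cast hhpos
  set v : ℝ := (Fintype.card V : ℝ) with hvdef
  have key : φ * Real.log (arcs G).card - (2 * φ - v) * Real.log (Fintype.card U) ≤
      Real.log (homs H G).card := by
    have hlim : Filter.Tendsto (fun k : ℕ => Real.log (homs H G).card +
        (φ * (arcs G).card) * (Real.log ((k : ℝ) + 1) / k)) Filter.atTop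
        (nhds (Real.log (homs H G).card + (φ * (arcs G).card) * 0)) := by
      refine tendsto_const_nhds.add (Filter.Tendsto.const_mul _ ?_)
      have h1 := (Real.isLittleO_log_id_atTop.tendsto_div_nhds_zero).comp
        (Filter.tendsto_atTop_add_const_right Filter.atTop (1 : ℝ) tendsto_natCast_atTop_atTop)
      have h2 : Filter.Tendsto (fun k : ℕ => ((k : ℝ) + 1) / k) Filter.atTop (nhds 1) := by
        have h3 : Filter.Tendsto (fun k : ℕ => 1 + 1 / (k : ℝ)) Filter.atTop (nhds (1 + 0)) :=
          tendsto_const_nhds.add tendsto_one_div_atTop_nhds_zero_nat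
        rw [add_zero] at h3
        refine h3.congr' ?_
        filter_upwards [Filter.eventually_ge_atTop 1] with k hk
        have : (0 : ℝ) < k := by exact_mod_cast hk
        field_simp
      have h4 := h1.mul h2
      rw [zero_mul] at h4
      refine h4.congr' ?_
      filter_upwards [Filter.eventually_ge_atTop 1] with k hk
      have : (0 : ℝ) < k := by exact_mod_cast hk
      simp only [Function.comp, id]
      field_simp
    rw [mul_zero, add_zero] at hlim
    refine ge_of_tendsto hlim ?_
    filter_upwards [Filter.eventually_ge_atTop 1] with N hN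
    have hNr : (0 : ℝ) < N := by exact_mod_cast hN
    obtain ⟨U', _, G', hG', hsub, hpop⟩ := exists_typeClass G hN
    have hM' : 0 < (arcs G').card := by
      by_contra h0
      have h0 : (arcs G').card = 0 := by omega
      rw [h0, zero_mul] at hpop
      have : 0 < (arcs G).card ^ (2 * N) := by positivity
      omega
    have hne' := card_pos_of_arcs hM'
    have hn' : (0 : ℝ) < Fintype.card U' := by exact_mod_cast Fintype.card_pos
    have hMr' : (0 : ℝ) < (arcs G').card := by exact_mod_cast hM'
    have hhpos' := homs_pos hs hM'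
    have hhr' : (0 : ℝ) < (homs H G').card := by exact_mod_cast hhpos'
    have h1 := transitive_bound hs huv hφ hv hyp hG' hM'
    have h2 : Real.log (Fintype.card U') ≤ 2 * N * Real.log (Fintype.card U) := by
      have h4 : ((Fintype.card U' : ℕ) : ℝ) ≤ (Fintype.card U : ℝ) ^ (2 * N) := by
        exact_mod_cast hsub.card_le
      have h5 := Real.log_le_log hn' h4
      rw [Real.log_pow] at h5
      push_cast at h5
      exact h5
    have h3 : Real.log (homs H G').card ≤ 2 * N * Real.log (homs H G).card := by
      have h4 : ((homs H G').card : ℝ) ≤ ((homs H G).card : ℝ) ^ (2 * N) := by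
        exact_mod_cast hsub.homs_le (H := H)
      have h5 := Real.log_le_log hhr' h4
      rw [Real.log_pow] at h5
      push_cast at h5
      exact h5
    have h4 : 2 * N * Real.log (arcs G).card ≤
        Real.log (arcs G').card + 2 * (arcs G).card * Real.log ((N : ℝ) + 1) := by
      have h5 : ((arcs G).card : ℝ) ^ (2 * N) ≤
          (arcs G').card * ((N : ℝ) + 1) ^ (2 * (arcs G).card) := by exact_mod_cast hpop
      have h6 := Real.log_le_log (by positivity) h5
      rw [Real.log_mul (by positivity) (by positivity), Real.log_pow, Real.log_pow] at h6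
      push_cast at h6
      exact h6
    rw [← hvdef] at h1
    have h5 := mul_le_mul_of_nonneg_left h4 (show 0 ≤ φ by linarith)
    have h6 := mul_le_mul_of_nonneg_left h2 (show 0 ≤ 2 * φ - v by linarith)
    have h7 : 2 * N * (φ * Real.log (arcs G).card - (2 * φ - v) * Real.log (Fintype.card U)) ≤
        2 * N * (Real.log (homs H G).card +
          (φ * (arcs G).card) * (Real.log ((N : ℝ) + 1) / N)) := by
      have h8 : 2 * N * ((φ * (arcs G).card) * (Real.log ((N : ℝ) + 1) / N)) =
          φ * (2 * (arcs G).card * Real.log ((N : ℝ) + 1)) := by field_simp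
      rw [mul_add, h8]
      linarith
    exact le_of_mul_le_mul_left h7 (by positivity)
  have h1 : Real.log (((arcs G).card / (Fintype.card U : ℝ) ^ 2) ^ φ) ≤
      Real.log ((homs H G).card / (Fintype.card U : ℝ) ^ Fintype.card V) := by
    rw [Real.log_rpow (by positivity), Real.log_div (by positivity) (by positivity),
      Real.log_div (by positivity) (by positivity), Real.log_pow, Real.log_pow]
    push_cast
    linarith
  exact (Real.log_le_log_iff (by positivity) (by positivity)).1 h1

end Vale.Agent.P050.H868
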