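import Vale.Agent.P050.H868.TypeClass
import Vale.Agent.P050.H398.Ord

/-!
Regular graphs: the extremal kernel on an arc-transitive graph.
-/

namespace Vale.Agent.P050.H868

open Finset Vale.Agent.P050.Lev

variable {V : Type} [Fintype V] [DecidableEq V] {H : SimpleGraph V} {s : V → Bool}

omit [DecidableEq V] in
theorem mem_sideEdges' {e : V × V} :
    e ∈ sideEdges H s ↔ H.Adj e.1 e.2 ∧ s e.1 = false ∧ s e.2 = true := by
  simp [sideEdges]

omit [DecidableEq V] in
theorem prod_side_fst (hs : ∀ u v, H.Adj u v → s u ≠ s v) {d : ℕ}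
    (hd : ∀ v, Nat.card {u // H.Adj v u} = d) (f : V → ℝ) :
    ∏ e ∈ sideEdges H s, f e.1 = ∏ u, if s u = false then f u ^ d else 1 := by
  classical
  unfold sideEdges
  rw [Finset.prod_filter, Fintype.prod_prod_type]
  refine Finset.prod_congr rfl fun u _ => ?_
  rw [← Finset.prod_filter]
  simp only [Finset.prod_const]
  split_ifs with h
  · congr 1
    rw [← hd u, Nat.card_eq_fintype_card, Fintype.card_subtype]
    congr 1
    ext v
    simp only [mem_filter, mem_univ, true_and]
    constructor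
    · exact fun h => h.1
    · intro h1
      refine ⟨h1, h, ?_⟩
      have := hs u v h1
      rw [h] at this
      cases h2 : s v
      · exact absurd h2.symm this
      · rfl
  · rw [Finset.filter_false_of_mem, Finset.card_empty, pow_zero]
    rintro v _ ⟨_, h2, _⟩
    exact h h2

omit [DecidableEq V] in
theorem prod_side_snd (hs : ∀ u v, H.Adj u v → s u ≠ s v) {d : ℕ}
    (hd : ∀ v, Nat.card {u // H.Adj v u} = d) (f : V → ℝ) :
    ∏ e ∈ sideEdges H s, f e.2 = ∏ u, if s u = true then f u ^ d else 1 := by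
  classical
  unfold sideEdges
  rw [Finset.prod_filter, Fintype.prod_prod_type_right]
  refine Finset.prod_congr rfl fun u _ => ?_
  rw [← Finset.prod_filter]
  simp only [Finset.prod_const]
  split_ifs with h
  · congr 1
    rw [← hd u, Nat.card_eq_fintype_card, Fintype.card_subtype]
    congr 1
    ext v
    simp only [mem_filter, mem_univ, true_and]
    constructor
    · exact fun h => h.1.symm
    · intro h1
      refine ⟨h1.symm, ?_, h⟩
      have := hs u v h1
      rw [h] at this
      cases h2 : s v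
      · rfl
      · exact absurd h2.symm this
  · rw [Finset.filter_false_of_mem, Finset.card_empty, pow_zero]
    rintro v _ ⟨_, _, h2⟩
    exact h h2

omit [DecidableEq V] in
theorem prod_side_both (hs : ∀ u v, H.Adj u v → s u ≠ s v) {d : ℕ}
    (hd : ∀ v, Nat.card {u // H.Adj v u} = d) (f : V → ℝ) :
    ∏ e ∈ sideEdges H s, (f e.1 * f e.2) = ∏ u, f u ^ d := by
  rw [Finset.prod_mul_distrib, prod_side_fst hs hd, prod_side_snd hs hd, ← Finset.prod_mul_distrib]
  refine Finset.prod_congr rfl fun u _ => ?_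
  cases h : s u <;> simp

omit [DecidableEq V] in
/-- the weighted product is a geometric mean over the edges -/
theorem geo_le (hs : ∀ u v, H.Adj u v → s u ≠ s v) {d : ℕ} (hd0 : 1 ≤ d)
    (hd : ∀ v, Nat.card {u // H.Adj v u} = d) {κ : ℝ} (hκ : 0 < κ)
    (hE : 0 < (sideEdges H s).card)
    (hw : 1 + (κ - 1) * d = κ / (sideEdges H s).card * d) {μ : V → ℝ} (hμ : ∀ v, 0 ≤ μ v) :
    (∏ v, μ v) * ∏ e ∈ sideEdges H s, (μ e.1 ^ (κ - 1) * μ e.2 ^ (κ - 1)) ≤
      (∑ e ∈ sideEdges H s, (μ e.1 * μ e.2) ^ κ) / (sideEdges H s).card := by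
  have hE' : (0 : ℝ) < (sideEdges H s).card := by exact_mod_cast hE
  have h1 : (∏ v, μ v) * ∏ e ∈ sideEdges H s, (μ e.1 ^ (κ - 1) * μ e.2 ^ (κ - 1)) =
      ∏ e ∈ sideEdges H s, ((μ e.1 * μ e.2) ^ κ) ^ (1 / ((sideEdges H s).card : ℝ)) := by
    rw [prod_side_both hs hd (fun v => μ v ^ (κ - 1)), ← Finset.prod_mul_distrib]
    have h2 : ∀ e ∈ sideEdges H s, ((μ e.1 * μ e.2) ^ κ) ^ (1 / ((sideEdges H s).card : ℝ)) =
        μ e.1 ^ (κ / (sideEdges H s).card) * μ e.2 ^ (κ / (sideEdges H s).card) := by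
      intro e _
      rw [← Real.rpow_mul (mul_nonneg (hμ _) (hμ _)), ← Real.mul_rpow (hμ _) (hμ _)]
      congr 1
      ring
    rw [Finset.prod_congr rfl h2, prod_side_both hs hd (fun v => μ v ^ (κ / (sideEdges H s).card))]
    refine Finset.prod_congr rfl fun v _ => ?_
    rcases (hμ v).eq_or_lt with h | h
    · rw [← h, zero_mul, Real.zero_rpow (div_pos hκ hE').ne', zero_pow (by omega)]
    · rw [← Real.rpow_natCast (μ v ^ (κ - 1)), ← Real.rpow_natCast (μ v ^ (κ / _)),
        ← Real.rpow_mul h.le, ← Real.rpow_mul h.le, ← hw, Real.rpow_add h, Real.rpow_one]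
  rw [h1]
  refine (Real.geom_mean_le_arith_mean_weighted (sideEdges H s)
    (fun _ => 1 / ((sideEdges H s).card : ℝ)) (fun e => (μ e.1 * μ e.2) ^ κ) ?_ ?_ ?_).trans
    (le_of_eq ?_)
  · intro _ _; positivity
  · rw [Finset.sum_const, nsmul_eq_mul]
    field_simp
  · intro e _
    exact Real.rpow_nonneg (mul_nonneg (hμ _) (hμ _)) _
  · rw [Finset.sum_div]
    refine Finset.sum_congr rfl fun e _ => ?_
    ring

variable {U : Type} [Fintype U] {G : SimpleGraph U}

/-- the functional to be maximised -/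
noncomputable def Phi (κ : ℝ) (G : SimpleGraph U) (r t : U → ℝ) : ℝ :=
  ∑ p ∈ arcs G, r p.1 ^ κ * t p.2 ^ κ

open Classical in
/-- the extremal kernel -/
noncomputable def Wk (κ A : ℝ) (G : SimpleGraph U) (r t : U → ℝ) (x y : U) : ℝ :=
  if G.Adj x y then r x ^ (κ - 1) * t y ^ (κ - 1) / A else 0

/-- two-sided density -/
noncomputable def dens2 (H : SimpleGraph V) (s : V → Bool) (m : Bool → U → ℝ) (W : U → U → ℝ) : ℝ :=
  ∑ z : V → U, (∏ v, m (s v) (z v)) * ∏ e ∈ sideEdges H s, W (z e.1) (z e.2)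

theorem dens2_le (hG : ArcTransitive G) (hs : ∀ u v, H.Adj u v → s u ≠ s v) {d : ℕ} (hd0 : 1 ≤ d)
    (hd : ∀ v, Nat.card {u // H.Adj v u} = d) {κ : ℝ} (hκ : 0 < κ)
    (hE : 0 < (sideEdges H s).card)
    (hw : 1 + (κ - 1) * d = κ / (sideEdges H s).card * d) {m : Bool → U → ℝ}
    (hm : ∀ b x, 0 ≤ m b x) {A : ℝ} (hA : 0 < A) (hA' : A = Phi κ G (m false) (m true)) :
    dens2 H s m (Wk κ A G (m false) (m true)) * A ^ (sideEdges H s).card * (arcs G).card ≤
      (homs H G).card * A := by
  classical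
  have hE' : (0 : ℝ) < (sideEdges H s).card := by exact_mod_cast hE
  -- only homomorphisms count
  have h1 : dens2 H s m (Wk κ A G (m false) (m true)) * A ^ (sideEdges H s).card =
      ∑ z ∈ homs H G, (∏ v, m (s v) (z v)) * ∏ e ∈ sideEdges H s,
        (m (s e.1) (z e.1) ^ (κ - 1) * m (s e.2) (z e.2) ^ (κ - 1)) := by
    unfold dens2
    rw [Finset.sum_mul, homs, Finset.sum_filter]
    refine Finset.sum_congr (by ext; simp) fun z _ => ?_
    split_ifs with h
    · rw [mul_assoc, ← Finset.prod_const, ← Finset.prod_mul_distrib]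
      congr 1
      refine Finset.prod_congr rfl fun e he => ?_
      obtain ⟨h1, h2, h3⟩ := mem_sideEdges'.1 he
      rw [Wk, if_pos (h _ _ h1), h2, h3, div_mul_cancel₀ _ hA.ne']
    · push Not at h
      obtain ⟨u, v, huv, hn⟩ := h
      have h0 : ∏ e ∈ sideEdges H s, Wk κ A G (m false) (m true) (z e.1) (z e.2) = 0 := by
        have hne := hs u v huv
        cases hu : s u
        · refine Finset.prod_eq_zero (i := (u, v)) (mem_sideEdges'.2 ⟨huv, hu, ?_⟩) ?_
          · cases hv : s v
            · rw [hu, hv] at hne; exact absurd rfl hne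
            · rfl
          · rw [Wk, if_neg hn]
        · refine Finset.prod_eq_zero (i := (v, u)) (mem_sideEdges'.2 ⟨huv.symm, ?_, hu⟩) ?_
          · cases hv : s v
            · rfl
            · rw [hu, hv] at hne; exact absurd rfl hne
          · rw [Wk, if_neg fun h => hn h.symm]
      rw [h0]; ring
  have h2 : ∀ z ∈ homs H G, (∏ v, m (s v) (z v)) * ∏ e ∈ sideEdges H s,
        (m (s e.1) (z e.1) ^ (κ - 1) * m (s e.2) (z e.2) ^ (κ - 1)) ≤
      (∑ e ∈ sideEdges H s, (m (s e.1) (z e.1) * m (s e.2) (z e.2)) ^ κ) /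
        (sideEdges H s).card := fun z _ =>
    geo_le hs hd0 hd hκ hE hw (μ := fun v => m (s v) (z v)) fun v => hm _ _
  have h3 : ∑ z ∈ homs H G, (∑ e ∈ sideEdges H s, (m (s e.1) (z e.1) * m (s e.2) (z e.2)) ^ κ) /
        (sideEdges H s).card * (arcs G).card = (homs H G).card * A := by
    have h4 : ∀ e ∈ sideEdges H s, (∑ z ∈ homs H G,
        (m (s e.1) (z e.1) * m (s e.2) (z e.2)) ^ κ) * (arcs G).card = (homs H G).card * A := by
      intro e he
      obtain ⟨h1, h2, h3⟩ := mem_sideEdges'.1 he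
      rw [h2, h3]
      have h5 : ∑ z ∈ homs H G, (m false (z e.1) * m true (z e.2)) ^ κ =
          ∑ p ∈ arcs G, (rooted H G e.1 e.2 p).card * (m false p.1 * m true p.2) ^ κ := by
        rw [← Finset.sum_fiberwise_of_maps_to (g := fun z => (z e.1, z e.2)) (t := arcs G)]
        · refine Finset.sum_congr rfl fun p _ => ?_
          rw [← nsmul_eq_mul, ← Finset.sum_const]
          refine Finset.sum_congr rfl fun z hz => ?_
          rw [← (Finset.mem_filter.1 hz).2]
        · intro z hz
          exact mem_arcs.2 (mem_homs.1 hz _ _ h1)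
      rw [h5, Finset.sum_mul, hA', Phi, Finset.mul_sum]
      refine Finset.sum_congr rfl fun p hp => ?_
      have h6 := rooted_mul hG h1 hp
      have h7 : ((rooted H G e.1 e.2 p).card : ℝ) * (arcs G).card = (homs H G).card := by
        exact_mod_cast h6
      rw [← h7, Real.mul_rpow (hm _ _) (hm _ _)]
      ring
    calc ∑ z ∈ homs H G, (∑ e ∈ sideEdges H s, (m (s e.1) (z e.1) * m (s e.2) (z e.2)) ^ κ) /
        (sideEdges H s).card * (arcs G).card
        = (∑ e ∈ sideEdges H s, (∑ z ∈ homs H G,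
        (m (s e.1) (z e.1) * m (s e.2) (z e.2)) ^ κ) * (arcs G).card) / (sideEdges H s).card := by
          rw [← Finset.sum_mul, ← Finset.sum_div, Finset.sum_comm, ← Finset.sum_mul]
          ring
      _ = (homs H G).card * A := by
          rw [Finset.sum_congr rfl h4, Finset.sum_const, nsmul_eq_mul]
          field_simp
  rw [h1, ← h3, Finset.sum_mul]
  refine Finset.sum_le_sum fun z hz => ?_
  exact mul_le_mul_of_nonneg_right (h2 z hz) (Nat.cast_nonneg _)

end Vale.Agent.P050.H868
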