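import Vale.Agent.P050.H868.TypeClass

/-!
Near-maximisers among the subgraphs of all tensor powers.
-/

namespace Vale.Agent.P050.H868

open Finset

/-- the functional -/
noncomputable def ff (φ v : ℝ) {U : Type} [Fintype U] (G : SimpleGraph U) : ℝ :=
  (φ - 1) * Real.log (arcs G).card - (2 * φ - v) * Real.log (Fintype.card U)

theorem card_pos_of_arcs {U : Type} [Fintype U] {G : SimpleGraph U} (h : 0 < (arcs G).card) :
    Nonempty U := by
  obtain ⟨p, _⟩ := Finset.card_pos.1 h
  exact ⟨p.1⟩

theorem ff_le {φ v : ℝ} (hφ : 1 < φ) (hv : v ≤ 2 * φ) {U U' : Type} [Fintype U] [Fintype U']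
    {G : SimpleGraph U} {G' : SimpleGraph U'} {N : ℕ} (h : Sub G N G') (hM : 0 < (arcs G').card) :
    ff φ v G' ≤ N * ((φ - 1) * Real.log (arcs G).card) := by
  have hne := card_pos_of_arcs hM
  have h1 : (0 : ℝ) ≤ Real.log (Fintype.card U') :=
    Real.log_nonneg (by exact_mod_cast Fintype.card_pos)
  have h2 : Real.log (arcs G').card ≤ N * Real.log (arcs G).card := by
    rw [← Real.log_pow]
    exact Real.log_le_log (by exact_mod_cast hM) (by exact_mod_cast h.arcs_le)
  have h3 : 0 ≤ (2 * φ - v) * Real.log (Fintype.card U') := mul_nonneg (by linarith) h1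
  have h4 : (φ - 1) * Real.log (arcs G').card ≤ (φ - 1) * (N * Real.log (arcs G).card) :=
    mul_le_mul_of_nonneg_left h2 (by linarith)
  unfold ff
  nlinarith

theorem exists_near {φ v : ℝ} (hφ : 1 < φ) (hv : v ≤ 2 * φ) {U : Type} [Fintype U]
    (G : SimpleGraph U) (hM : 0 < (arcs G).card) {ε : ℝ} (hε : 0 < ε) (L : ℕ) :
    ∃ (U' : Type) (_ : Fintype U') (G' : SimpleGraph U') (N : ℕ), L ≤ N ∧ 1 ≤ N ∧ ArcTransitive G' ∧
      Sub G N G' ∧ 0 < (arcs G').card ∧
      ∀ (U'' : Type) [Fintype U''] (G'' : SimpleGraph U'') (N'' : ℕ), 1 ≤ N'' → Sub G N'' G'' →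
        0 < (arcs G'').card → ff φ v G'' / N'' ≤ ff φ v G' / N + ε := by
  let S : Set ℝ := {x | ∃ (U' : Type) (_ : Fintype U') (G' : SimpleGraph U') (N : ℕ), 1 ≤ N ∧
    Sub G N G' ∧ 0 < (arcs G').card ∧ x = ff φ v G' / N}
  have hbdd : BddAbove S := by
    refine ⟨(φ - 1) * Real.log (arcs G).card, ?_⟩
    rintro x ⟨U', _, G', N, hN, hsub, hM', rfl⟩
    rw [div_le_iff₀ (by exact_mod_cast hN), mul_comm]
    exact ff_le hφ hv hsub hM'
  have hne : S.Nonempty := ⟨_, U, inferInstance, G, 1, le_rfl, Sub.refl G, hM, rfl⟩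
  obtain ⟨x, ⟨U', _, G', N, hN, hsub, hM', rfl⟩, hx⟩ :=
    exists_lt_of_lt_csSup hne (show sSup S - ε / 2 < sSup S by linarith)
  have hN' : (0 : ℝ) < N := by exact_mod_cast hN
  -- a large type class
  have hlim : Filter.Tendsto (fun k : ℕ => Real.log ((k : ℝ) + 1) / k) Filter.atTop (nhds 0) := by
    have h1 := (Real.isLittleO_log_id_atTop.tendsto_div_nhds_zero).comp
      (Filter.tendsto_atTop_add_const_right Filter.atTop (1 : ℝ) tendsto_natCast_atTop_atTop)
    have h2 : Filter.Tendsto (fun k : ℕ => ((k : ℝ) + 1) / k) Filter.atTop (nhds 1) := by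
      have h3 : Filter.Tendsto (fun k : ℕ => 1 + 1 / (k : ℝ)) Filter.atTop (nhds (1 + 0)) :=
        tendsto_const_nhds.add tendsto_one_div_atTop_nhds_zero_nat
      rw [add_zero] at h3
      refine h3.congr' ?_
      filter_upwards [Filter.eventually_ge_atTop 1] with k hk
      have : (0 : ℝ) < k := by exact_mod_cast hk
      field_simp
    have h4 := h1.mul h2
    rw [zero_mul] at h4
    refine h4.congr' ?_
    filter_upwards [Filter.eventually_ge_atTop 1] with k hk
    have : (0 : ℝ) < k := by exact_mod_cast hk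
    simp only [Function.comp, id]
    field_simp
  have hmul := hlim.mul_const ((φ - 1) * (arcs G').card)
  rw [zero_mul] at hmul
  obtain ⟨K0, hK0⟩ := Filter.eventually_atTop.1 (hmul.eventually (gt_mem_nhds
    (show (0 : ℝ) < ε / 2 by linarith)))
  set K := max K0 (L + 1) with hK
  have hK1 : 1 ≤ K := by omega
  have hKε := hK0 K (le_max_left _ _)
  obtain ⟨U3, _, G3, htr, hsub3, hpop⟩ := exists_typeClass G' hK1
  have hM3 : 0 < (arcs G3).card := by
    by_contra h0
    have h0 : (arcs G3).card = 0 := by omega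
    rw [h0, zero_mul] at hpop
    have : 0 < (arcs G').card ^ (2 * K) := by positivity
    omega
  have hne3 := card_pos_of_arcs hM3
  have hKr : (0 : ℝ) < K := by exact_mod_cast hK1
  refine ⟨U3, inferInstance, G3, 2 * K * N, ?_, ?_, htr, hsub.trans hsub3, hM3, ?_⟩
  · calc L ≤ K := by omega
      _ ≤ 2 * K := by omega
      _ ≤ 2 * K * N := Nat.le_mul_of_pos_right _ hN
  · calc 1 ≤ 2 * K := by omega
      _ ≤ 2 * K * N := Nat.le_mul_of_pos_right _ hN
  · intro U'' _ G'' N'' hN'' hsub'' hM''
    have h1 : ff φ v G'' / N'' ≤ sSup S :=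
      le_csSup hbdd ⟨U'', inferInstance, G'', N'', hN'', hsub'', hM'', rfl⟩
    -- compare
    have h2 : 2 * K * Real.log (arcs G').card ≤
        Real.log (arcs G3).card + 2 * (arcs G').card * Real.log ((K : ℝ) + 1) := by
      have h3 : ((arcs G').card : ℝ) ^ (2 * K) ≤
          (arcs G3).card * ((K : ℝ) + 1) ^ (2 * (arcs G').card) := by exact_mod_cast hpop
      have h4 := Real.log_le_log (by positivity) h3
      rw [Real.log_mul (by positivity) (by positivity), Real.log_pow, Real.log_pow] at h4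
      push_cast at h4
      exact h4
    have h3 : Real.log (Fintype.card U3) ≤ 2 * K * Real.log (Fintype.card U') := by
      have h4 : ((Fintype.card U3 : ℕ) : ℝ) ≤ (Fintype.card U' : ℝ) ^ (2 * K) := by
        exact_mod_cast hsub3.card_le
      have h5 := Real.log_le_log (by exact_mod_cast Fintype.card_pos) h4
      rw [Real.log_pow] at h5
      push_cast at h5
      exact h5
    have h4 : 2 * K * ff φ v G' ≤
        ff φ v G3 + (φ - 1) * (2 * (arcs G').card * Real.log ((K : ℝ) + 1)) := by
      unfold ff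
      have h5 := mul_le_mul_of_nonneg_left h2 (show 0 ≤ φ - 1 by linarith)
      have h6 := mul_le_mul_of_nonneg_left h3 (show 0 ≤ 2 * φ - v by linarith)
      linarith
    have h5 : ff φ v G' / N ≤ ff φ v G3 / ((2 * K * N : ℕ) : ℝ) + ε / 2 := by
      push_cast
      have h6 : Real.log ((K : ℝ) + 1) * ((φ - 1) * (arcs G').card) ≤ ε / 2 * K := by
        have := hKε.le
        rw [div_mul_eq_mul_div, div_le_iff₀ hKr] at this
        exact this
      have h7 : ff φ v G' / N = 2 * K * ff φ v G' / (2 * K * N) := by field_simp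
      rw [h7]
      have h8 : ff φ v G3 / (2 * K * N) + ε / 2 = (ff φ v G3 + ε / 2 * (2 * K * N)) / (2 * K * N) := by
        field_simp
      rw [h8]
      refine div_le_div_of_nonneg_right ?_ (by positivity)
      have h9 : ε / 2 * (2 * K) ≤ ε / 2 * (2 * K * N) := by
        have : (1 : ℝ) ≤ N := by exact_mod_cast hN
        have : (2 * K : ℝ) ≤ 2 * K * N := le_mul_of_one_le_right (by positivity) this
        exact mul_le_mul_of_nonneg_left this (by linarith)
      linarith
    linarith

end Vale.Agent.P050.H868
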