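import Vale.Agent.P050.H868.Square

/-!
Regular graphs: the inequality for contractive kernels implies Sidorenko's inequality.
-/

namespace Vale.Agent.P050.H868

open Finset Vale.Agent.P050.Lev

variable {V : Type} [Fintype V] [DecidableEq V] {H : SimpleGraph V} {s : V → Bool}

omit [DecidableEq V] in
/-- product over the edges -/
theorem prod_edges (hs : ∀ u v, H.Adj u v → s u ≠ s v) (f : Sym2 V → ℝ) :
    (open Classical in ∏ e ∈ H.edgeFinset, f e) = ∏ e ∈ sideEdges H s, f s(e.1, e.2) := by
  classical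
  symm
  refine Finset.prod_bij (fun e _ => s(e.1, e.2)) ?_ ?_ ?_ ?_
  · rintro ⟨u, v⟩ he
    rw [SimpleGraph.mem_edgeFinset]
    exact (mem_sideEdges'.1 he).1
  · rintro ⟨a, b⟩ h ⟨c, d⟩ h' hh
    obtain ⟨-, h2, h3⟩ := mem_sideEdges'.1 h
    obtain ⟨-, h5, h6⟩ := mem_sideEdges'.1 h'
    simp only at h2 h3 h5 h6
    rcases Sym2.eq_iff.1 hh with ⟨h7, h8⟩ | ⟨h7, h8⟩
    · exact Prod.ext h7 h8
    · simp only at h7
      rw [h7, h6] at h2
      cases h2
  · intro e he
    rw [SimpleGraph.mem_edgeFinset] at he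
    induction e using Sym2.ind with
    | _ a b =>
      have hab : H.Adj a b := he
      have hne := hs a b hab
      cases ha : s a
      · refine ⟨(a, b), mem_sideEdges'.2 ⟨hab, ha, ?_⟩, rfl⟩
        cases hb : s b
        · rw [ha, hb] at hne; exact absurd rfl hne
        · rfl
      · refine ⟨(b, a), mem_sideEdges'.2 ⟨hab.symm, ?_, ha⟩, Sym2.eq_swap⟩
        cases hb : s b
        · rfl
        · rw [ha, hb] at hne; exact absurd rfl hne
  · intro e _
    rfl

theorem kernelDensity_eq (hs : ∀ u v, H.Adj u v → s u ≠ s v) {U : Type} [Fintype U] (r : U → ℝ)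
    (W : Sym2 U → ℝ) :
    kernelDensity H r W = ∑ z : V → U, (∏ v, r (z v)) *
      ∏ e ∈ sideEdges H s, W s(z e.1, z e.2) := by
  unfold kernelDensity
  refine Finset.sum_congr (by ext; simp) fun z _ => ?_
  exact congrArg (fun t => (∏ v, r (z v)) * t) (prod_edges hs (fun e => W (e.map z)))

omit [DecidableEq V] in
theorem prod_swap (s : V → Bool) (f : V × V → ℝ) :
    ∏ e ∈ sideEdges H (fun v => !s v), f e = ∏ e ∈ sideEdges H s, f (e.2, e.1) := by
  refine Finset.prod_bij (fun e _ => (e.2, e.1)) ?_ ?_ ?_ ?_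
  · intro e he
    obtain ⟨h1, h2, h3⟩ := mem_sideEdges'.1 he
    rw [mem_sideEdges']
    refine ⟨h1.symm, ?_, ?_⟩
    · simpa using h3
    · simpa using h2
  · rintro ⟨a, b⟩ _ ⟨c, d⟩ _ h
    simp only [Prod.mk.injEq] at h
    exact Prod.ext h.2 h.1
  · rintro ⟨a, b⟩ he
    obtain ⟨h1, h2, h3⟩ := mem_sideEdges'.1 he
    refine ⟨(b, a), ?_, rfl⟩
    rw [mem_sideEdges']
    refine ⟨h1.symm, ?_, ?_⟩
    · simpa using h3
    · simpa using h2
  · rintro ⟨a, b⟩ _
    rfl

/-- separate the coordinates according to the side -/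
def sep (s : V → Bool) (U : Type) : (V → U × U) ≃ (V → U) × (V → U) where
  toFun z := (fun v => bif s v then (z v).2 else (z v).1, fun v => bif s v then (z v).1 else (z v).2)
  invFun p v := bif s v then (p.2 v, p.1 v) else (p.1 v, p.2 v)
  left_inv z := by
    funext v
    cases h : s v <;> simp [h]
  right_inv p := by
    refine Prod.ext ?_ ?_
    · funext v
      cases h : s v <;> simp [h]
    · funext v
      cases h : s v <;> simp [h]

theorem twist_density (hs : ∀ u v, H.Adj u v → s u ≠ s v) {U : Type} [Fintype U] (m : Bool → U → ℝ)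
    (W : U → U → ℝ) :
    kernelDensity H (fun p : U × U => m false p.1 * m true p.2) (twist W) =
      dens2 H s m W * dens2 H (fun v => !s v) m W := by
  rw [kernelDensity_eq hs]
  unfold dens2
  rw [Finset.sum_mul_sum, ← Fintype.sum_prod_type']
  refine Fintype.sum_equiv (sep s U) _ _ fun z => ?_
  have h1 : ∏ v, (m false (z v).1 * m true (z v).2) =
      (∏ v, m (s v) ((sep s U z).1 v)) * ∏ v, m (!s v) ((sep s U z).2 v) := by
    rw [← Finset.prod_mul_distrib]
    refine Finset.prod_congr rfl fun v _ => ?_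
    cases h : s v
    · simp [sep, h]
    · simp [sep, h, mul_comm]
  have h2 : ∏ e ∈ sideEdges H s, twist W s(z e.1, z e.2) =
      (∏ e ∈ sideEdges H s, W ((sep s U z).1 e.1) ((sep s U z).1 e.2)) *
        ∏ e ∈ sideEdges H (fun v => !s v), W ((sep s U z).2 e.1) ((sep s U z).2 e.2) := by
    rw [prod_swap s (fun e => W ((sep s U z).2 e.1) ((sep s U z).2 e.2)),
      ← Finset.prod_mul_distrib]
    refine Finset.prod_congr rfl fun e he => ?_
    obtain ⟨-, h2, h3⟩ := mem_sideEdges'.1 he
    rw [twist_mk]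
    simp [sep, h2, h3]
  rw [h1, h2]
  ring

omit [DecidableEq V] in
/-- cardinalities of a regular bipartite graph -/
theorem card_side (hs : ∀ u v, H.Adj u v → s u ≠ s v) {d a : ℕ} (hd0 : 1 ≤ d)
    (hd : ∀ v, Nat.card {u // H.Adj v u} = d) (ha : Fintype.card V = 2 * a) :
    (sideEdges H s).card = a * d := by
  have h1 : ∀ b : Bool, (∏ u, if s u = b then (2 : ℝ) ^ d else 1) =
      2 ^ (d * (univ.filter fun u => s u = b).card) := by
    intro b
    rw [← Finset.prod_filter, Finset.prod_const, pow_mul]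
  have h2 := prod_side_fst hs hd (fun _ => (2 : ℝ))
  have h3 := prod_side_snd hs hd (fun _ => (2 : ℝ))
  rw [Finset.prod_const, h1] at h2 h3
  have h2' : (sideEdges H s).card = d * (univ.filter fun u => s u = false).card :=
    pow_right_injective₀ (by norm_num : (0 : ℝ) < 2) (by norm_num) h2
  have h3' : (sideEdges H s).card = d * (univ.filter fun u => s u = true).card :=
    pow_right_injective₀ (by norm_num : (0 : ℝ) < 2) (by norm_num) h3
  have h4 : (univ.filter fun u => s u = false).card + (univ.filter fun u => s u = true).card =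
      2 * a := by
    rw [← ha, ← Finset.card_univ, ← Finset.card_filter_add_card_filter_not (s := univ)
      (fun u => s u = false)]
    congr 2
    ext u
    simp
  have h5 : (univ.filter fun u => s u = false).card = (univ.filter fun u => s u = true).card :=
    Nat.eq_of_mul_eq_mul_left hd0 (h2'.symm.trans h3')
  have h6 : (univ.filter fun u => s u = false).card = a := by omega
  rw [h2', h6, mul_comm]

end Vale.Agent.P050.H868
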