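import Vale.Agent.P050.TDefs
import Mathlib.Analysis.MeanInequalities
import Mathlib.Analysis.MeanInequalitiesPow

/-!
# Semi-covers of a bipartite graph (backup)
-/

namespace Vale.Agent.P050.H868.SemiCov

open Finset

noncomputable section

/-! ### Averages -/

/-- mean of a function on a finite type -/
def E {Ω : Type*} [Fintype Ω] (f : Ω → ℝ) : ℝ := (∑ x, f x) / Fintype.card Ω

theorem E_nonneg {Ω : Type*} [Fintype Ω] {f : Ω → ℝ} (h : ∀ x, 0 ≤ f x) : 0 ≤ E f :=
  div_nonneg (sum_nonneg fun x _ => h x) (Nat.cast_nonneg _)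

theorem E_mono {Ω : Type*} [Fintype Ω] {f g : Ω → ℝ} (h : ∀ x, f x ≤ g x) : E f ≤ E g :=
  div_le_div_of_nonneg_right (sum_le_sum fun x _ => h x) (Nat.cast_nonneg _)

theorem E_congr {Ω : Type*} [Fintype Ω] {f g : Ω → ℝ} (h : ∀ x, f x = g x) : E f = E g := by
  unfold E; rw [sum_congr rfl fun x _ => h x]

theorem E_equiv {Ω Ω' : Type*} [Fintype Ω] [Fintype Ω'] (e : Ω ≃ Ω') (f : Ω' → ℝ) :
    E (fun x => f (e x)) = E f := by
  unfold E; rw [Equiv.sum_comp e f, Fintype.card_congr e]

theorem E_const {Ω : Type*} [Fintype Ω] [Nonempty Ω] (c : ℝ) : E (fun _ : Ω => c) = c := by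
  unfold E
  rw [sum_const, card_univ, nsmul_eq_mul, mul_div_assoc, mul_comm, div_mul_cancel₀]
  exact Nat.cast_ne_zero.2 Fintype.card_ne_zero

theorem E_pow_le {Ω : Type*} [Fintype Ω] [Nonempty Ω] {f : Ω → ℝ} (h : ∀ x, 0 ≤ f x) (n : ℕ) :
    E f ^ n ≤ E fun x => f x ^ n := by
  have hc : (0 : ℝ) < Fintype.card Ω := Nat.cast_pos.2 Fintype.card_pos
  have := Real.pow_arith_mean_le_arith_mean_pow univ (fun _ : Ω => (Fintype.card Ω : ℝ)⁻¹) f
    (fun _ _ => by positivity) (by
      rw [sum_const, card_univ, nsmul_eq_mul, mul_inv_cancel₀ hc.ne']) (fun x _ => h x) n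
  simp only [← mul_sum] at this
  unfold E
  rw [div_eq_inv_mul, div_eq_inv_mul]
  exact this

theorem E_rpow_le {Ω : Type*} [Fintype Ω] [Nonempty Ω] {f : Ω → ℝ} (h : ∀ x, 0 ≤ f x) {p : ℝ}
    (hp : 1 ≤ p) : E f ^ p ≤ E fun x => f x ^ p := by
  have hc : (0 : ℝ) < Fintype.card Ω := Nat.cast_pos.2 Fintype.card_pos
  have := Real.rpow_arith_mean_le_arith_mean_rpow univ (fun _ : Ω => (Fintype.card Ω : ℝ)⁻¹) f
    (fun _ _ => by positivity) (by
      rw [sum_const, card_univ, nsmul_eq_mul, mul_inv_cancel₀ hc.ne']) (fun x _ => h x) hp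
  simp only [← mul_sum] at this
  unfold E
  rw [div_eq_inv_mul, div_eq_inv_mul]
  exact this

/-- AM-GM -/
theorem gm_le_E {Ω : Type*} [Fintype Ω] [Nonempty Ω] {f : Ω → ℝ} (h : ∀ x, 0 ≤ f x) :
    (∏ x, f x) ^ ((Fintype.card Ω : ℝ)⁻¹) ≤ E f := by
  have hc : (0 : ℝ) < Fintype.card Ω := Nat.cast_pos.2 Fintype.card_pos
  have := Real.geom_mean_le_arith_mean_weighted univ (fun _ : Ω => (Fintype.card Ω : ℝ)⁻¹) f
    (fun _ _ => by positivity) (by
      rw [sum_const, card_univ, nsmul_eq_mul, mul_inv_cancel₀ hc.ne']) (fun x _ => h x)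
  rw [Real.finsetProd_rpow univ f (fun x _ => h x), ← mul_sum] at this
  unfold E
  rw [div_eq_inv_mul]
  exact this

theorem E_comm {Ω Ω' : Type*} [Fintype Ω] [Fintype Ω'] (f : Ω → Ω' → ℝ) :
    E (fun x => E fun y => f x y) = E fun y => E fun x => f x y := by
  unfold E
  rw [← sum_div, ← sum_div, sum_comm, div_div, div_div, mul_comm]

/-! ### One coordinate -/

variable {A : Type*} [Fintype A] [DecidableEq A]

/-- exchange of one coordinate -/
def swapAt {Z : A → Type*} (a : A) : ((∀ a, Z a) × Z a) ≃ ((∀ a, Z a) × Z a) where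
  toFun p := (Function.update p.1 a p.2, p.1 a)
  invFun p := (Function.update p.1 a p.2, p.1 a)
  left_inv p := by simp
  right_inv p := by simp

theorem E_update {Z : A → Type*} [∀ a, Fintype (Z a)] [∀ a, Nonempty (Z a)] (a : A)
    (g : (∀ a, Z a) → ℝ) : E g = E fun x => E fun z => g (Function.update x a z) := by
  have hc : ((Fintype.card (Z a) : ℕ) : ℝ) ≠ 0 := Nat.cast_ne_zero.2 Fintype.card_ne_zero
  have h : ∑ x : (∀ a, Z a), ∑ z : Z a, g (Function.update x a z)
      = Fintype.card (Z a) * ∑ x, g x := by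
    rw [← Fintype.sum_prod_type' (f := fun x z => g (Function.update x a z))]
    have h1 := Equiv.sum_comp (swapAt (Z := Z) a) (fun p : (∀ a, Z a) × Z a => g p.1)
    have h2 : ∑ p : (∀ a, Z a) × Z a, g p.1 = Fintype.card (Z a) * ∑ x, g x := by
      rw [Fintype.sum_prod_type]
      simp only [sum_const, card_univ, nsmul_eq_mul, ← mul_sum]
    rw [← h2, ← h1]
    rfl
  unfold E
  rw [← sum_div, h]
  field_simp

/-- independent coordinates of one block -/
theorem E_prod_block {n : ℕ} {X : Type*} [Fintype X] [Nonempty X] (φ : X → ℝ) :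
    E (fun z : Fin n → X => ∏ i, φ (z i)) = E φ ^ n := by
  classical
  have h := Finset.prod_univ_sum (fun _ : Fin n => (univ : Finset X)) fun _ x => φ x
  rw [prod_const, card_univ, Fintype.card_fin, Fintype.piFinset_univ] at h
  unfold E
  rw [← h, div_pow, Fintype.card_fun, Fintype.card_fin, Nat.cast_pow]

theorem E_coord {n : ℕ} {X : Type*} [Fintype X] [Nonempty X] (i : Fin n) (φ : X → ℝ) :
    E (fun z : Fin n → X => φ (z i)) = E φ := by
  classical
  rw [E_update (Z := fun _ : Fin n => X) i]
  simp only [Function.update_self]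
  exact E_const _

/-! ### The blow-up -/

/-- the chosen copies: all at the points of `s`, copy `0` elsewhere -/
def J (k : A → ℕ) [∀ a, NeZero (k a)] (s : Finset A) : Finset (∀ a, Fin (k a)) :=
  Fintype.piFinset fun a => if a ∈ s then univ else {0}

variable (k : A → ℕ) [∀ a, NeZero (k a)]

theorem mem_J {s : Finset A} {j : ∀ a, Fin (k a)} : j ∈ J k s ↔ ∀ a, a ∉ s → j a = 0 := by
  unfold J
  rw [Fintype.mem_piFinset]
  refine forall_congr' fun a => ?_
  by_cases h : a ∈ s <;> simp [h]

theorem J_univ : J k univ = univ := by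
  ext j; simp [mem_J]

/-- one more coordinate -/
theorem prod_J_insert {s : Finset A} {a : A} (ha : a ∉ s) (F : (∀ a, Fin (k a)) → ℝ) :
    ∏ j ∈ J k (insert a s), F j = ∏ i : Fin (k a), ∏ j ∈ J k s, F (Function.update j a i) := by
  rw [← prod_product', prod_nbij' (fun j => (j a, Function.update j a 0))
    (fun p => Function.update p.2 a p.1)]
  · intro j hj
    rw [mem_product]
    refine ⟨mem_univ _, ?_⟩
    rw [mem_J] at hj ⊢
    intro b hb
    by_cases hba : b = a
    · subst hba; simp
    · change Function.update j a 0 b = 0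
      rw [Function.update_of_ne hba]
      exact hj b (by simp [hba, hb])
  · intro p hp
    rw [mem_product] at hp
    have hp2 := (mem_J k).1 hp.2
    rw [mem_J]
    intro b hb
    rw [mem_insert, not_or] at hb
    rw [Function.update_of_ne hb.1]
    exact hp2 b hb.2
  · intro j _; simp
  · intro p hp
    rw [mem_product] at hp
    have hp2 := (mem_J k).1 hp.2 a ha
    ext1
    · simp
    · simp only [Function.update_idem]
      rw [← hp2, Function.update_eq_self]
  · intro j _; simp

variable {X : A → Type*} [∀ a, Fintype (X a)] [∀ a, Nonempty (X a)]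

/-- the density of the blow-up with the copies of `s` -/
def T (q : (∀ a, X a) → ℝ) (s : Finset A) : ℝ :=
  E fun x : ∀ a, Fin (k a) → X a => ∏ j ∈ J k s, q fun a => x a (j a)

theorem T_insert {q : (∀ a, X a) → ℝ} (hq : ∀ y, 0 ≤ q y) {s : Finset A} {a : A} (ha : a ∉ s) :
    T k q s ^ k a ≤ T k q (insert a s) := by
  -- the product with the coordinate `a` replaced by `u`
  set Φ : (∀ a, Fin (k a) → X a) → X a → ℝ := fun x u =>
    ∏ j ∈ J k s, q (Function.update (fun b => x b (j b)) a u) with hΦ
  have hΦ0 : ∀ x u, 0 ≤ Φ x u := fun x u => prod_nonneg fun j _ => hq _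
  have hΦu : ∀ x (z : Fin (k a) → X a) u, Φ (Function.update x a z) u = Φ x u := by
    intro x z u
    refine prod_congr rfl fun j _ => ?_
    congr 1
    funext b
    by_cases hb : b = a
    · subst hb; simp
    · rw [Function.update_of_ne hb, Function.update_of_ne hb, Function.update_of_ne hb]
  have h1 : T k q s = E fun x => E fun u => Φ x u := by
    have e1 : ∀ x : ∀ a, Fin (k a) → X a,
        (∏ j ∈ J k s, q fun b => x b (j b)) = Φ x (x a 0) := by
      intro x
      refine prod_congr rfl fun j hj => ?_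
      congr 1
      funext b
      by_cases hb : b = a
      · subst hb
        rw [Function.update_self, (mem_J k).1 hj b ha]
      · rw [Function.update_of_ne hb]
    unfold T
    rw [E_congr e1, E_update a]
    refine E_congr fun x => ?_
    have e2 : ∀ z : Fin (k a) → X a, Φ (Function.update x a z) (Function.update x a z a 0)
        = Φ x (z 0) := by
      intro z
      rw [hΦu, Function.update_self]
    rw [E_congr e2, E_coord]
  have h2 : T k q (insert a s) = E fun x => (E fun u => Φ x u) ^ k a := by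
    have e1 : ∀ x : ∀ a, Fin (k a) → X a,
        (∏ j ∈ J k (insert a s), q fun b => x b (j b)) = ∏ i, Φ x (x a i) := by
      intro x
      rw [prod_J_insert k ha]
      refine prod_congr rfl fun i _ => prod_congr rfl fun j hj => ?_
      congr 1
      funext b
      by_cases hb : b = a
      · subst hb
        rw [Function.update_self, Function.update_self]
      · rw [Function.update_of_ne hb, Function.update_of_ne hb]
    unfold T
    rw [E_congr e1, E_update a]
    refine E_congr fun x => ?_
    rw [← E_prod_block]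
    refine E_congr fun z => prod_congr rfl fun i _ => ?_
    rw [hΦu, Function.update_self]
  rw [h1, h2]
  exact E_pow_le (fun x => E_nonneg (hΦ0 x)) _

theorem T_empty (q : (∀ a, X a) → ℝ) : T k q ∅ = E fun x : ∀ a, Fin (k a) → X a =>
    q fun a => x a 0 := by
  unfold T
  refine E_congr fun x => ?_
  have : J k (∅ : Finset A) = {fun a => 0} := by
    ext j
    rw [mem_J, mem_singleton]
    constructor
    · intro h; funext a; exact h a (notMem_empty a)
    · rintro rfl a _; rfl
  rw [this, prod_singleton]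

variable {k}

/-- **coordinate by coordinate** -/
theorem T_le {q : (∀ a, X a) → ℝ} (hq : ∀ y, 0 ≤ q y) (s : Finset A) :
    T k q ∅ ^ (∏ a ∈ s, k a) ≤ T k q s := by
  induction s using Finset.induction_on with
  | empty => simp
  | insert a s ha ih =>
    rw [prod_insert ha, mul_comm, pow_mul]
    refine le_trans (pow_le_pow_left₀ ?_ ih _) (T_insert k hq ha)
    exact pow_nonneg (E_nonneg fun x => prod_nonneg fun j _ => hq _) _

theorem T_empty' (q : (∀ a, X a) → ℝ) : T k q ∅ = E q := by
  rw [T_empty]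
  -- independent coordinates: the map `x ↦ (fun a => x a 0)` is measure preserving
  have key : ∀ s : Finset A, ∀ q : (∀ a, X a) → ℝ, ∀ y0 : ∀ a, X a,
      E (fun x : ∀ a, Fin (k a) → X a => q fun a => if a ∈ s then x a 0 else y0 a)
        = E fun y : ∀ a, X a => q fun a => if a ∈ s then y a else y0 a := by
    intro s
    induction s using Finset.induction_on with
    | empty =>
      intro q y0
      simp only [notMem_empty, if_false]
      rw [E_const, E_const]
    | insert a s ha ih =>
      intro q y0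
      rw [E_update (Z := fun a => Fin (k a) → X a) a, E_update (Z := X) a]
      have e1 : ∀ (x : ∀ a, Fin (k a) → X a) (z : Fin (k a) → X a),
          q (fun b => if b ∈ insert a s then Function.update x a z b 0 else y0 b)
            = q (Function.update (fun b => if b ∈ s then x b 0 else y0 b) a (z 0)) := by
        intro x z
        congr 1
        funext b
        by_cases hb : b = a
        · subst hb; simp
        · simp [hb, Function.update_of_ne hb]
      have e2 : ∀ (x : ∀ a, X a) (z : X a),
          q (fun b => if b ∈ insert a s then Function.update x a z b else y0 b)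
            = q (Function.update (fun b => if b ∈ s then x b else y0 b) a z) := by
        intro x z
        congr 1
        funext b
        by_cases hb : b = a
        · subst hb; simp
        · simp [hb, Function.update_of_ne hb]
      rw [E_congr fun x => E_congr fun z => e1 x z, E_congr fun x => E_congr fun z => e2 x z,
        E_comm, E_comm (Ω := ∀ a, X a)]
      have e3 : ∀ z : Fin (k a) → X a,
          E (fun x : ∀ a, Fin (k a) → X a =>
            q (Function.update (fun b => if b ∈ s then x b 0 else y0 b) a (z 0)))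
          = E fun x : ∀ a, X a =>
            q (Function.update (fun b => if b ∈ s then x b else y0 b) a (z 0)) :=
        fun z => ih (fun y => q (Function.update y a (z 0))) y0
      rw [E_congr e3]
      exact E_coord (0 : Fin (k a)) fun u => E fun x : ∀ a, X a =>
            q (Function.update (fun b => if b ∈ s then x b else y0 b) a u)
  have := key univ q (fun a => Classical.arbitrary _)
  simpa using this

/-- **The blow-up inequality.** -/
theorem blow_le {q : (∀ a, X a) → ℝ} (hq : ∀ y, 0 ≤ q y) :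
    E q ^ (∏ a, k a) ≤ E fun x : ∀ a, Fin (k a) → X a =>
      ∏ j : ∀ a, Fin (k a), q fun a => x a (j a) := by
  have := T_le (k := k) hq univ
  rw [T_empty'] at this
  unfold T at this
  rwa [J_univ] at this

/-! ### The semi-cover -/

variable {B : Type*} [Fintype B] {M : ℕ}

/-- translation of the copies -/
def tr (k : A → ℕ) [∀ a, NeZero (k a)] (X : A → Type*) (g : ∀ a, Fin (k a)) :
    (∀ a, Fin (k a) → X a) ≃ (∀ a, Fin (k a) → X a) where
  toFun x a i := x a (i + g a)
  invFun x a i := x a (i - g a)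
  left_inv x := by funext a i; simp
  right_inv x := by funext a i; simp

/-- averages over the translations -/
theorem E_tr (h : (∀ a, Fin (k a) → X a) → ℝ) :
    E h = E fun x : ∀ a, Fin (k a) → X a => E fun g : ∀ a, Fin (k a) => h (tr k X g x) := by
  rw [E_comm, E_congr fun g => E_equiv (tr k X g) h, E_const]

/-- the product over the translations does not see the attachment -/
theorem prod_tr (f : B → (∀ a, X a) → ℝ) (c : B → Fin M → ∀ a, Fin (k a))
    (x : ∀ a, Fin (k a) → X a) :
    ∏ g : ∀ a, Fin (k a), ∏ b, ∏ m, f b (fun a => tr k X g x a (c b m a))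
      = (∏ j : ∀ a, Fin (k a), ∏ b, f b fun a => x a (j a)) ^ M := by
  have key : ∀ (b : B) (m : Fin M), ∏ g : ∀ a, Fin (k a), f b (fun a => x a (c b m a + g a))
      = ∏ j : ∀ a, Fin (k a), f b fun a => x a (j a) := fun b m =>
    Equiv.prod_comp (Equiv.addLeft (c b m)) fun j : ∀ a, Fin (k a) => f b fun a => x a (j a)
  have e1 : ∏ g : ∀ a, Fin (k a), ∏ b, ∏ m, f b (fun a => tr k X g x a (c b m a))
      = ∏ b, ∏ m : Fin M, ∏ g : ∀ a, Fin (k a), f b (fun a => x a (c b m a + g a)) := by
    rw [prod_comm]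
    exact prod_congr rfl fun b _ => prod_comm
  rw [e1, prod_congr rfl fun b _ => prod_congr rfl fun m _ => key b m]
  simp only [prod_const, card_univ, Fintype.card_fin]
  rw [prod_pow, prod_comm]

/-- **Semi-covers, kernel form.** -/
theorem semi_le (f : B → (∀ a, X a) → ℝ) (hf : ∀ b y, 0 ≤ f b y)
    (c : B → Fin M → ∀ a, Fin (k a)) (hM : ∏ a, k a ≤ M) :
    (E fun y : ∀ a, X a => ∏ b, f b y) ^ M ≤
      E fun x : ∀ a, Fin (k a) → X a => ∏ b, ∏ m, f b fun a => x a (c b m a) := by
  have hK1 : 1 ≤ ∏ a, k a :=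
    Nat.one_le_iff_ne_zero.2 (prod_ne_zero_iff.2 fun a _ => NeZero.ne _)
  have hKc : (Fintype.card (∀ a, Fin (k a)) : ℝ) = (∏ a, k a : ℕ) := by
    rw [Fintype.card_pi]; simp
  obtain ⟨K, hK⟩ : ∃ K, K = ∏ a, k a := ⟨_, rfl⟩
  rw [← hK] at hK1 hKc hM
  have hKp : (0 : ℝ) < K := by exact_mod_cast hK1
  have hq0 : ∀ y : ∀ a, X a, 0 ≤ ∏ b, f b y := fun y => prod_nonneg fun b _ => hf b y
  have hQ0 : ∀ x : ∀ a, Fin (k a) → X a, 0 ≤ ∏ j : ∀ a, Fin (k a), ∏ b, f b fun a => x a (j a) :=
    fun x => prod_nonneg fun j _ => hq0 _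
  have h4 : ∀ x : ∀ a, Fin (k a) → X a,
      (∏ j : ∀ a, Fin (k a), ∏ b, f b fun a => x a (j a)) ^ ((M : ℝ) / K) ≤
      E fun g : ∀ a, Fin (k a) => ∏ b, ∏ m, f b (fun a => tr k X g x a (c b m a)) := by
    intro x
    refine le_trans (le_of_eq ?_) (gm_le_E fun g => prod_nonneg fun b _ => prod_nonneg fun m _ =>
      hf _ _)
    rw [prod_tr f c x, hKc, ← Real.rpow_natCast, ← Real.rpow_mul (hQ0 x), div_eq_mul_inv]
  have h5 : (1 : ℝ) ≤ (M : ℝ) / K := by
    rw [le_div_iff₀ hKp, one_mul]; exact_mod_cast hM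
  have hb := blow_le (k := k) hq0
  rw [← hK] at hb
  calc (E fun y : ∀ a, X a => ∏ b, f b y) ^ M
      = ((E fun y : ∀ a, X a => ∏ b, f b y) ^ K) ^ ((M : ℝ) / K) := by
        rw [← Real.rpow_natCast, ← Real.rpow_natCast, ← Real.rpow_mul (E_nonneg hq0),
          mul_div_cancel₀ _ hKp.ne']
    _ ≤ (E fun x : ∀ a, Fin (k a) → X a =>
          ∏ j : ∀ a, Fin (k a), ∏ b, f b fun a => x a (j a)) ^ ((M : ℝ) / K) :=
        Real.rpow_le_rpow (pow_nonneg (E_nonneg hq0) _) hb (by positivity)
    _ ≤ _ := E_rpow_le hQ0 h5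
    _ ≤ _ := E_mono h4
    _ = _ := (E_tr fun x => ∏ b, ∏ m, f b fun a => x a (c b m a)).symm

end

end Vale.Agent.P050.H868.SemiCov
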