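import Vale.Agent.P050.H868.Kern

/-!
The extremal kernel is contractive; the twisted square.
-/

namespace Vale.Agent.P050.H868

open Finset Vale.Agent.P050.Lev

variable {U : Type} [Fintype U] {G : SimpleGraph U}

theorem Phi_nonneg {κ : ℝ} {r t : U → ℝ} (hr : ∀ x, 0 ≤ r x) (ht : ∀ x, 0 ≤ t x) :
    0 ≤ Phi κ G r t :=
  Finset.sum_nonneg fun p _ => mul_nonneg (Real.rpow_nonneg (hr _) _) (Real.rpow_nonneg (ht _) _)

theorem exists_maximiser [Nonempty U] (G : SimpleGraph U) {κ : ℝ} (hκ : 0 < κ) :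
    ∃ r t : U → ℝ, (∀ x, 0 ≤ r x) ∧ (∀ x, 0 ≤ t x) ∧ ∑ x, r x = 1 ∧ ∑ x, t x = 1 ∧
      ∀ r' t' : U → ℝ, (∀ x, 0 ≤ r' x) → (∀ x, 0 ≤ t' x) → ∑ x, r' x = 1 → ∑ x, t' x = 1 →
        Phi κ G r' t' ≤ Phi κ G r t := by
  classical
  have hne : (stdSimplex ℝ U ×ˢ stdSimplex ℝ U).Nonempty := by
    obtain ⟨x⟩ := ‹Nonempty U›
    exact ⟨(Pi.single x 1, Pi.single x 1), single_mem_stdSimplex ℝ x, single_mem_stdSimplex ℝ x⟩
  have hc : Continuous fun p : (U → ℝ) × (U → ℝ) => Phi κ G p.1 p.2 := by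
    unfold Phi
    refine continuous_finsetSum _ fun p _ => Continuous.mul ?_ ?_
    · exact ((continuous_apply p.1).comp continuous_fst).rpow_const fun _ => Or.inr hκ.le
    · exact ((continuous_apply p.2).comp continuous_snd).rpow_const fun _ => Or.inr hκ.le
  obtain ⟨⟨r, t⟩, ⟨hr, ht⟩, hmax⟩ := ((isCompact_stdSimplex ℝ U).prod
    (isCompact_stdSimplex ℝ U)).exists_isMaxOn hne hc.continuousOn
  refine ⟨r, t, hr.1, ht.1, hr.2, ht.2, fun r' t' h1 h2 h3 h4 => ?_⟩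
  exact hmax (a := (r', t')) ⟨⟨h1, h3⟩, ⟨h2, h4⟩⟩

/-- homogeneous form of maximality -/
theorem Phi_le {κ A : ℝ} (hκ : 0 < κ)
    (hmax : ∀ r' t' : U → ℝ, (∀ x, 0 ≤ r' x) → (∀ x, 0 ≤ t' x) → ∑ x, r' x = 1 →
      ∑ x, t' x = 1 → Phi κ G r' t' ≤ A) {a b : U → ℝ} (ha : ∀ x, 0 ≤ a x) (hb : ∀ x, 0 ≤ b x) :
    Phi κ G a b ≤ A * (∑ x, a x) ^ κ * (∑ x, b x) ^ κ := by
  rcases (Finset.sum_nonneg fun x (_ : x ∈ univ) => ha x).eq_or_lt with h | h
  · have h0 : ∀ x, a x = 0 := fun x =>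
      (Finset.sum_eq_zero_iff_of_nonneg fun x _ => ha x).1 h.symm x (mem_univ x)
    have : Phi κ G a b = 0 := Finset.sum_eq_zero fun p _ => by
      rw [h0, Real.zero_rpow hκ.ne', zero_mul]
    rw [this, ← h, Real.zero_rpow hκ.ne']
    simp
  rcases (Finset.sum_nonneg fun x (_ : x ∈ univ) => hb x).eq_or_lt with h' | h'
  · have h0 : ∀ x, b x = 0 := fun x =>
      (Finset.sum_eq_zero_iff_of_nonneg fun x _ => hb x).1 h'.symm x (mem_univ x)
    have : Phi κ G a b = 0 := Finset.sum_eq_zero fun p _ => by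
      rw [h0 p.2, Real.zero_rpow hκ.ne', mul_zero]
    rw [this, ← h', Real.zero_rpow hκ.ne']
    simp
  have h1 := hmax (fun x => a x / ∑ x, a x) (fun x => b x / ∑ x, b x)
    (fun x => div_nonneg (ha x) h.le) (fun x => div_nonneg (hb x) h'.le)
    (by rw [← Finset.sum_div, div_self h.ne']) (by rw [← Finset.sum_div, div_self h'.ne'])
  have h2 : Phi κ G (fun x => a x / ∑ x, a x) (fun x => b x / ∑ x, b x) =
      Phi κ G a b / ((∑ x, a x) ^ κ * (∑ x, b x) ^ κ) := by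
    unfold Phi
    rw [Finset.sum_div]
    refine Finset.sum_congr rfl fun p _ => ?_
    rw [Real.div_rpow (ha _) h.le, Real.div_rpow (hb _) h'.le, div_mul_div_comm]
  rw [h2, div_le_iff₀ (by positivity)] at h1
  linarith [h1]

theorem mul_rpow_sub_one {x κ : ℝ} (hx : 0 ≤ x) (hκ : 0 < κ) : x * x ^ (κ - 1) = x ^ κ := by
  rcases hx.eq_or_lt with h | h
  · rw [← h, zero_mul, Real.zero_rpow hκ.ne']
  · rw [Real.rpow_sub_one h.ne', mul_div_cancel₀ _ h.ne']

theorem Wk_nonneg {κ A : ℝ} (hA : 0 ≤ A) {r t : U → ℝ} (hr : ∀ x, 0 ≤ r x) (ht : ∀ x, 0 ≤ t x)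
    (x y : U) : 0 ≤ Wk κ A G r t x y := by
  unfold Wk
  split_ifs
  · exact div_nonneg (mul_nonneg (Real.rpow_nonneg (hr _) _) (Real.rpow_nonneg (ht _) _)) hA
  · exact le_rfl

/-- the weighted sum of the extremal kernel against two functions -/
theorem sum_Wk {κ A : ℝ} (hκ : 0 < κ) {r t : U → ℝ} (hr : ∀ x, 0 ≤ r x)
    (ht : ∀ x, 0 ≤ t x) {f g : U → ℝ} (hf : ∀ x, 0 ≤ f x) (hg : ∀ x, 0 ≤ g x) :
    ∑ x, ∑ y, r x * t y * (f x * Wk κ A G r t x y * g y) =
      Phi κ G (fun x => r x * f x ^ (1 / κ)) (fun x => t x * g x ^ (1 / κ)) / A := by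
  classical
  unfold Phi arcs
  rw [Finset.sum_filter, Fintype.sum_prod_type, Finset.sum_div]
  refine Finset.sum_congr rfl fun x _ => ?_
  rw [Finset.sum_div]
  refine Finset.sum_congr rfl fun y _ => ?_
  unfold Wk
  split_ifs with h h' h'
  · rw [Real.mul_rpow (hr x) (Real.rpow_nonneg (hf x) _),
      Real.mul_rpow (ht y) (Real.rpow_nonneg (hg y) _), ← Real.rpow_mul (hf x),
      ← Real.rpow_mul (hg y), one_div, inv_mul_cancel₀ hκ.ne', Real.rpow_one, Real.rpow_one,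
      ← mul_rpow_sub_one (hr x) hκ, ← mul_rpow_sub_one (ht y) hκ]
    ring
  · simp

section

variable {κ A : ℝ} {r t : U → ℝ} (hκ : 0 < κ) (hA : 0 < A) (hr : ∀ x, 0 ≤ r x)
  (ht : ∀ x, 0 ≤ t x)
  (hmax : ∀ r' t' : U → ℝ, (∀ x, 0 ≤ r' x) → (∀ x, 0 ≤ t' x) → ∑ x, r' x = 1 →
      ∑ x, t' x = 1 → Phi κ G r' t' ≤ A)

include hκ hA hr ht hmax in
theorem contr2 {f g : U → ℝ} (hf : ∀ x, 0 ≤ f x) (hg : ∀ x, 0 ≤ g x) :
    ∑ x, ∑ y, r x * t y * (f x * Wk κ A G r t x y * g y) ≤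
      (∑ x, r x * f x ^ (1 / κ)) ^ κ * (∑ x, t x * g x ^ (1 / κ)) ^ κ := by
  rw [sum_Wk hκ hr ht hf hg, div_le_iff₀ hA]
  have := Phi_le hκ hmax (a := fun x => r x * f x ^ (1 / κ)) (b := fun x => t x * g x ^ (1 / κ))
    (fun x => mul_nonneg (hr x) (Real.rpow_nonneg (hf x) _))
    (fun x => mul_nonneg (ht x) (Real.rpow_nonneg (hg x) _))
  linarith

end

/-- the twisted square of a kernel -/
def twist {U : Type} (W : U → U → ℝ) : Sym2 (U × U) → ℝ :=
  Sym2.lift ⟨fun p p' => W p.1 p'.2 * W p'.1 p.2, fun p p' => mul_comm _ _⟩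

theorem twist_mk {U : Type} (W : U → U → ℝ) (p p' : U × U) :
    twist W s(p, p') = W p.1 p'.2 * W p'.1 p.2 := rfl

theorem sum4 (F : U → U → U → U → ℝ) :
    ∑ p : U × U, ∑ p' : U × U, F p.1 p.2 p'.1 p'.2 =
      ∑ x', ∑ y, ∑ x, ∑ y', F x y x' y' := by
  rw [Fintype.sum_prod_type]
  simp only [Fintype.sum_prod_type]
  calc ∑ x, ∑ y, ∑ x', ∑ y', F x y x' y' = ∑ x, ∑ x', ∑ y, ∑ y', F x y x' y' :=
        Finset.sum_congr rfl fun x _ => Finset.sum_comm
    _ = ∑ x', ∑ x, ∑ y, ∑ y', F x y x' y' := Finset.sum_comm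
    _ = ∑ x', ∑ y, ∑ x, ∑ y', F x y x' y' :=
        Finset.sum_congr rfl fun x _ => Finset.sum_comm

theorem twist_contractive {κ : ℝ} (hκ : 0 < κ) {r t : U → ℝ} (hr : ∀ x, 0 ≤ r x)
    (ht : ∀ x, 0 ≤ t x) (hr1 : ∑ x, r x = 1) (ht1 : ∑ x, t x = 1) {W : U → U → ℝ}
    (hW : ∀ x y, 0 ≤ W x y) (hmean : ∑ x, ∑ y, r x * t y * W x y = 1)
    (hc : ∀ f g : U → ℝ, (∀ x, 0 ≤ f x) → (∀ x, 0 ≤ g x) →
      ∑ x, ∑ y, r x * t y * (f x * W x y * g y) ≤
      (∑ x, r x * f x ^ (1 / κ)) ^ κ * (∑ x, t x * g x ^ (1 / κ)) ^ κ) :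
    Bounded (1 / κ) 1 (fun p : U × U => r p.1 * t p.2) (twist W) := by
  refine ⟨fun p => mul_nonneg (hr _) (ht _), ?_, ?_, ?_, ?_⟩
  · rw [Fintype.sum_prod_type]
    simp only [← Finset.mul_sum, ht1, mul_one, hr1]
  · intro e
    induction e using Sym2.ind with
    | _ p p' => exact mul_nonneg (hW _ _) (hW _ _)
  · have := sum4 fun x y x' y' : U => r x * t y * (r x' * t y') * (W x y' * W x' y)
    simp only [twist_mk]
    rw [this]
    have h2 : ∀ x' y : U, ∑ x, ∑ y', r x * t y * (r x' * t y') * (W x y' * W x' y) =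
        r x' * t y * W x' y := by
      intro x' y
      have : ∀ x y', r x * t y * (r x' * t y') * (W x y' * W x' y) =
          (r x' * t y * W x' y) * (r x * t y' * W x y') := fun x y' => by ring
      simp only [this]
      simp only [← Finset.mul_sum]
      rw [hmean, mul_one]
    simp only [h2, hmean]
  · intro F K hF hK
    rw [one_mul]
    have := sum4 fun x y x' y' : U => r x * t y * (r x' * t y') *
      (F (x, y) * (W x y' * W x' y) * K (x', y'))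
    simp only [twist_mk]
    rw [this]
    set a : U → ℝ := fun y => (∑ x, r x * F (x, y) ^ (1 / κ)) ^ κ with ha
    set b : U → ℝ := fun x' => (∑ y', t y' * K (x', y') ^ (1 / κ)) ^ κ with hb
    have ha1 : ∀ y, 0 ≤ ∑ x, r x * F (x, y) ^ (1 / κ) := fun y =>
      Finset.sum_nonneg fun x _ => mul_nonneg (hr x) (Real.rpow_nonneg (hF _) _)
    have hb1 : ∀ x', 0 ≤ ∑ y', t y' * K (x', y') ^ (1 / κ) := fun x' =>
      Finset.sum_nonneg fun y _ => mul_nonneg (ht y) (Real.rpow_nonneg (hK _) _)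
    have h2 : ∀ x' y : U, ∑ x, ∑ y', r x * t y * (r x' * t y') *
        (F (x, y) * (W x y' * W x' y) * K (x', y')) ≤ r x' * t y * (b x' * W x' y * a y) := by
      intro x' y
      have : ∀ x y', r x * t y * (r x' * t y') * (F (x, y) * (W x y' * W x' y) * K (x', y')) =
          (r x' * t y * W x' y) * (r x * t y' * (F (x, y) * W x y' * K (x', y'))) :=
        fun x y' => by ring
      simp only [this]
      simp only [← Finset.mul_sum]
      have h3 := hc (fun x => F (x, y)) (fun y' => K (x', y')) (fun _ => hF _) (fun _ => hK _)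
      calc r x' * t y * W x' y * ∑ x, ∑ y', r x * t y' * (F (x, y) * W x y' * K (x', y'))
          ≤ r x' * t y * W x' y * (a y * b x') :=
            mul_le_mul_of_nonneg_left h3 (mul_nonneg (mul_nonneg (hr _) (ht _)) (hW _ _))
        _ = _ := by ring
    have h4 := hc b a (fun x => Real.rpow_nonneg (hb1 x) _) (fun y => Real.rpow_nonneg (ha1 y) _)
    have h5 : ∀ x, b x ^ (1 / κ) = ∑ y', t y' * K (x, y') ^ (1 / κ) := fun x => by
      rw [hb, ← Real.rpow_mul (hb1 x), mul_one_div, div_self hκ.ne', Real.rpow_one]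
    have h6 : ∀ y, a y ^ (1 / κ) = ∑ x, r x * F (x, y) ^ (1 / κ) := fun y => by
      rw [ha, ← Real.rpow_mul (ha1 y), mul_one_div, div_self hκ.ne', Real.rpow_one]
    refine ((Finset.sum_le_sum fun x' _ => Finset.sum_le_sum fun y _ => h2 x' y).trans h4).trans
      (le_of_eq ?_)
    simp only [h5, h6, one_div_one_div]
    rw [mul_comm]
    congr 2
    · rw [Fintype.sum_prod_type_right]
      refine Finset.sum_congr rfl fun y _ => ?_
      rw [Finset.mul_sum]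
      refine Finset.sum_congr rfl fun x _ => ?_
      ring
    · rw [Fintype.sum_prod_type]
      refine Finset.sum_congr rfl fun y _ => ?_
      rw [Finset.mul_sum]
      refine Finset.sum_congr rfl fun x _ => ?_
      ring

end Vale.Agent.P050.H868
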