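import Vale.Agent.P050.H868.Base

/-!
A popular symmetric type class in a tensor power: an arc-transitive graph with almost all arcs.
-/

namespace Vale.Agent.P050.H868

open Finset

/-- number of occurrences -/
def cnt {I D : Type} [Fintype I] [DecidableEq D] (w : I → D) (d : D) : ℕ :=
  (univ.filter fun i => w i = d).card

theorem exists_perm {I D : Type} [Fintype I] [DecidableEq D] {w w' : I → D}
    (h : ∀ d, cnt w d = cnt w' d) : ∃ σ : Equiv.Perm I, ∀ i, w (σ i) = w' i := by
  classical
  have e : ∀ d : D, {i // w' i = d} ≃ {i // w i = d} := fun d =>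
    Fintype.equivOfCardEq (by
      rw [Fintype.card_subtype, Fintype.card_subtype]
      exact (h d).symm)
  refine ⟨(Equiv.sigmaFiberEquiv w').symm.trans
    ((Equiv.sigmaCongrRight e).trans (Equiv.sigmaFiberEquiv w)), fun i => ?_⟩
  show w ((e (w' i)) ⟨i, rfl⟩).1 = w' i
  exact (e (w' i) ⟨i, rfl⟩).2

section

variable {U : Type} (G : SimpleGraph U)

/-- arcs as a type -/
abbrev Arc := {p : U × U // G.Adj p.1 p.2}

variable {G}

/-- the reversed arc -/
def rev (d : Arc G) : Arc G := ⟨(d.1.2, d.1.1), d.2.symm⟩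

theorem rev_rev (d : Arc G) : rev (rev d) = d := rfl

variable {I : Type} (C : Set (I → Arc G))

/-- the vertices of the graph of a class of words -/
abbrev ClsV := {x : I → U // ∃ w ∈ C, ∀ i, (w i).1.1 = x i}

/-- the graph of a class of words closed under reversal -/
def clsGraph [Nonempty I] (hC : ∀ w ∈ C, (fun i => rev (w i)) ∈ C) : SimpleGraph (ClsV C) where
  Adj x y := ∃ w ∈ C, (∀ i, (w i).1.1 = x.1 i) ∧ ∀ i, (w i).1.2 = y.1 i
  symm := ⟨fun x y ⟨w, hw, h1, h2⟩ => ⟨_, hC w hw, h2, h1⟩⟩
  loopless := ⟨fun x ⟨w, _, h1, h2⟩ => by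
    obtain ⟨i⟩ := ‹Nonempty I›
    exact (w i).2.ne ((h1 i).trans (h2 i).symm)⟩

variable {C}

theorem clsGraph_transitive [Nonempty I] (hC : ∀ w ∈ C, (fun i => rev (w i)) ∈ C)
    (hperm : ∀ w ∈ C, ∀ σ : Equiv.Perm I, (fun i => w (σ i)) ∈ C)
    (htr : ∀ w ∈ C, ∀ w' ∈ C, ∃ σ : Equiv.Perm I, ∀ i, w (σ i) = w' i) :
    ArcTransitive (clsGraph C hC) := by
  rintro x y x' y' ⟨w, hw, h1, h2⟩ ⟨w', hw', h1', h2'⟩
  obtain ⟨σ, hσ⟩ := htr w hw w' hw'
  have hm : ∀ (τ : Equiv.Perm I) (x : ClsV C), ∃ w ∈ C, ∀ i, (w i).1.1 = x.1 (τ i) := by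
    rintro τ ⟨x, w, hw, h⟩
    exact ⟨_, hperm w hw τ, fun i => h (τ i)⟩
  refine ⟨⟨⟨fun x => ⟨fun i => x.1 (σ i), hm σ x⟩,
    fun x => ⟨fun i => x.1 (σ.symm i), hm σ.symm x⟩, fun x => ?_, fun x => ?_⟩, ?_⟩, ?_, ?_⟩
  · apply Subtype.ext
    funext i
    show x.1 (σ (σ.symm i)) = x.1 i
    rw [Equiv.apply_symm_apply]
  · apply Subtype.ext
    funext i
    show x.1 (σ.symm (σ i)) = x.1 i
    rw [Equiv.symm_apply_apply]
  · intro a b
    constructor
    · rintro ⟨v, hv, h3, h4⟩
      refine ⟨_, hperm v hv σ.symm, fun i => ?_, fun i => ?_⟩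
      · have := h3 (σ.symm i)
        simp only [Equiv.coe_fn_mk, Equiv.apply_symm_apply] at this
        exact this
      · have := h4 (σ.symm i)
        simp only [Equiv.coe_fn_mk, Equiv.apply_symm_apply] at this
        exact this
    · rintro ⟨v, hv, h3, h4⟩
      exact ⟨_, hperm v hv σ, fun i => h3 (σ i), fun i => h4 (σ i)⟩
  · apply Subtype.ext
    funext i
    show x.1 (σ i) = x'.1 i
    rw [← h1, ← h1', hσ]
  · apply Subtype.ext
    funext i
    show y.1 (σ i) = y'.1 i
    rw [← h2, ← h2', hσ]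

end

theorem exists_typeClass {U : Type} [Fintype U] (G : SimpleGraph U) {N : ℕ} (hN : 1 ≤ N) :
    ∃ (U' : Type) (_ : Fintype U') (G' : SimpleGraph U'), ArcTransitive G' ∧
      Sub G (2 * N) G' ∧
      (arcs G).card ^ (2 * N) ≤ (arcs G').card * (N + 1) ^ (2 * (arcs G).card) := by
  classical
  have : Nonempty (Fin N) := ⟨⟨0, hN⟩⟩
  have hD : Fintype.card (Arc G) = (arcs G).card := by
    rw [Fintype.card_subtype, arcs]
  -- the popular type
  let ty : (Fin N → Arc G) → (Arc G → Fin (N + 1)) := fun w d => ⟨cnt w d, by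
    unfold cnt
    have := Finset.card_le_univ (univ.filter fun i => w i = d)
    rw [Fintype.card_fin] at this
    omega⟩
  obtain ⟨τ, -, hτ⟩ := Finset.exists_max_image (univ : Finset (Arc G → Fin (N + 1)))
    (fun τ => (univ.filter fun w => ty w = τ).card) ⟨fun _ => 0, mem_univ _⟩
  set F := univ.filter fun w => ty w = τ with hF
  have hpop : (arcs G).card ^ N ≤ F.card * (N + 1) ^ (arcs G).card := by
    have h1 : (univ : Finset (Fin N → Arc G)).card =
        ∑ σ : Arc G → Fin (N + 1), (univ.filter fun w => ty w = σ).card :=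
      Finset.card_eq_sum_card_fiberwise (fun w _ => mem_univ _)
    have h2 : (univ : Finset (Fin N → Arc G)).card = (arcs G).card ^ N := by
      rw [Finset.card_univ, Fintype.card_fun, Fintype.card_fin, hD]
    rw [← h2, h1]
    calc ∑ σ : Arc G → Fin (N + 1), (univ.filter fun w => ty w = σ).card
        ≤ ∑ _σ : Arc G → Fin (N + 1), F.card := Finset.sum_le_sum fun σ _ => hτ σ (mem_univ _)
      _ = F.card * (N + 1) ^ (arcs G).card := by
          rw [Finset.sum_const, Finset.card_univ, Fintype.card_fun, Fintype.card_fin, hD,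
            smul_eq_mul, mul_comm]
  -- the symmetric class
  let C : Set (Fin N ⊕ Fin N → Arc G) := {w | ∀ d, cnt w d = τ d + τ (rev d)}
  have hCrev : ∀ w ∈ C, (fun i => rev (w i)) ∈ C := by
    intro w hw d
    have h1 : cnt (fun i => rev (w i)) d = cnt w (rev d) := by
      unfold cnt
      congr 1
      ext i
      simp only [mem_filter, mem_univ, true_and]
      constructor
      · intro h; rw [← h, rev_rev]
      · intro h; rw [h, rev_rev]
    rw [h1, hw (rev d), rev_rev, add_comm]
  have hCperm : ∀ w ∈ C, ∀ σ : Equiv.Perm (Fin N ⊕ Fin N), (fun i => w (σ i)) ∈ C := by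
    intro w hw σ d
    rw [← hw d]
    unfold cnt
    refine Finset.card_bij (fun i _ => σ i) ?_ ?_ ?_
    · intro i hi
      simpa using hi
    · intro i _ j _ h
      exact σ.injective h
    · intro j hj
      refine ⟨σ.symm j, ?_, by simp⟩
      simpa using hj
  have hCtr : ∀ w ∈ C, ∀ w' ∈ C, ∃ σ : Equiv.Perm (Fin N ⊕ Fin N), ∀ i, w (σ i) = w' i :=
    fun w hw w' hw' => exists_perm fun d => (hw d).trans (hw' d).symm
  have hlow : F.card * F.card ≤ Fintype.card C := by
    rw [← Finset.card_product, ← Fintype.card_coe]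
    refine Fintype.card_le_of_injective
      (fun p => ⟨Sum.elim p.1.1 (fun i => rev (p.1.2 i)), ?_⟩) ?_
    · intro d
      obtain ⟨⟨w1, w2⟩, hp⟩ := p
      rw [Finset.mem_product] at hp
      have h1 : ty w1 = τ := (Finset.mem_filter.1 hp.1).2
      have h2 : ty w2 = τ := (Finset.mem_filter.1 hp.2).2
      have h3 : cnt w1 d = τ d := congrArg Fin.val (congrFun h1 d)
      have h4 : cnt w2 (rev d) = τ (rev d) := congrArg Fin.val (congrFun h2 (rev d))
      rw [← h3, ← h4]
      unfold cnt
      rw [← Finset.card_map (⟨Sum.inl, Sum.inl_injective⟩ : Fin N ↪ Fin N ⊕ Fin N),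
        ← Finset.card_map (s := univ.filter fun i => w2 i = rev d)
          (⟨Sum.inr, Sum.inr_injective⟩ : Fin N ↪ Fin N ⊕ Fin N), ← Finset.card_union_of_disjoint]
      · congr 1
        ext i
        rcases i with i | i
        · simp
        · simp only [mem_filter, mem_univ, true_and, Sum.elim_inr, mem_union, mem_map,
            Function.Embedding.coeFn_mk, reduceCtorEq, and_false, exists_false, Sum.inr.injEq,
            exists_eq_right, false_or]
          constructor
          · intro h; rw [← h, rev_rev]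
          · intro h; rw [h, rev_rev]
      · rw [Finset.disjoint_left]
        intro i hi hj
        simp only [mem_map, Function.Embedding.coeFn_mk] at hi hj
        obtain ⟨a, -, rfl⟩ := hi
        obtain ⟨b, -, h⟩ := hj
        cases h
    · intro p q h
      have h' : Sum.elim p.1.1 (fun i => rev (p.1.2 i)) =
          Sum.elim q.1.1 (fun i => rev (q.1.2 i)) := congrArg Subtype.val h
      apply Subtype.ext
      apply Prod.ext
      · funext i
        exact congrFun h' (Sum.inl i)
      · funext i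
        have := congrFun h' (Sum.inr i)
        simp only [Sum.elim_inr] at this
        rw [← rev_rev (p.1.2 i), this, rev_rev]
  refine ⟨ClsV C, inferInstance, clsGraph C hCrev, clsGraph_transitive hCrev hCperm hCtr,
    ⟨Fin N ⊕ Fin N, inferInstance, ?_, fun x => x.1, Subtype.val_injective, ?_⟩, ?_⟩
  · rw [Fintype.card_sum, Fintype.card_fin, two_mul]
  · rintro x y ⟨w, _, h1, h2⟩ i
    show G.Adj (x.1 i) (y.1 i)
    rw [← h1, ← h2]
    exact (w i).2
  · have hC : Fintype.card C ≤ (arcs (clsGraph C hCrev)).card := by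
      rw [← Fintype.card_coe]
      refine Fintype.card_le_of_injective (fun w => ⟨(⟨fun i => (w.1 i).1.1, w.1, w.2, fun _ => rfl⟩,
        ⟨fun i => (w.1 i).1.2, _, hCrev w.1 w.2, fun _ => rfl⟩),
        mem_arcs.2 ⟨w.1, w.2, fun _ => rfl, fun _ => rfl⟩⟩) ?_
      intro w w' h
      have h0 := congrArg Subtype.val h
      have h1 := congrArg Subtype.val (congrArg Prod.fst h0)
      have h2 := congrArg Subtype.val (congrArg Prod.snd h0)
      apply Subtype.ext
      funext i
      apply Subtype.ext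
      exact Prod.ext (congrFun h1 i) (congrFun h2 i)
    calc (arcs G).card ^ (2 * N) = (arcs G).card ^ N * (arcs G).card ^ N := by
          rw [two_mul, pow_add]
      _ ≤ (F.card * (N + 1) ^ (arcs G).card) * (F.card * (N + 1) ^ (arcs G).card) :=
          Nat.mul_le_mul hpop hpop
      _ = F.card * F.card * (N + 1) ^ (2 * (arcs G).card) := by
          rw [two_mul, pow_add]; ring
      _ ≤ (arcs (clsGraph C hCrev)).card * (N + 1) ^ (2 * (arcs G).card) :=
          Nat.mul_le_mul_right _ (hlow.trans hC)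

end Vale.Agent.P050.H868
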