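import Vale.Agent.P050.H868.Near

/-!
Near-maximisers are upper regular.
-/

namespace Vale.Agent.P050.H868

open Finset

variable {U : Type} [Fintype U] (G : SimpleGraph U)

/-- two copies of `S × T`, joined through the graph -/
def box (S T : Finset U) : SimpleGraph (({x // x ∈ S} × {y // y ∈ T}) × Bool) where
  Adj p q := p.2 ≠ q.2 ∧ G.Adj p.1.1.1 q.1.2.1 ∧ G.Adj p.1.2.1 q.1.1.1
  symm := ⟨fun _ _ h => ⟨h.1.symm, h.2.2.symm, h.2.1.symm⟩⟩
  loopless := ⟨fun _ h => h.1 rfl⟩

variable {G}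

omit [Fintype U] in
theorem box_sub {S T : Finset U} {U₀ : Type} {G₀ : SimpleGraph U₀} {N : ℕ} (h : Sub G₀ N G)
    {x₀ y₀ : U₀} (h₀ : G₀.Adj x₀ y₀) : Sub G₀ (2 * N + 1) (box G S T) := by
  obtain ⟨I, _, hI, α, hα, ha⟩ := h
  refine ⟨(I ⊕ I) ⊕ Unit, inferInstance, by simp [hI, two_mul],
    fun p => bif p.2 then Sum.elim (Sum.elim (α p.1.2.1) (α p.1.1.1)) (fun _ => y₀)
      else Sum.elim (Sum.elim (α p.1.1.1) (α p.1.2.1)) (fun _ => x₀), ?_, ?_⟩
  · rintro ⟨⟨x, y⟩, b⟩ ⟨⟨x', y'⟩, b'⟩ h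
    have hne : x₀ ≠ y₀ := h₀.ne
    cases b <;> cases b'
    · simp only [cond_false] at h
      have h1 : α x.1 = α x'.1 := funext fun i => congrFun h (Sum.inl (Sum.inl i))
      have h2 : α y.1 = α y'.1 := funext fun i => congrFun h (Sum.inl (Sum.inr i))
      rw [Subtype.ext (hα h1), Subtype.ext (hα h2)]
    · exact absurd (congrFun h (Sum.inr ())) hne
    · exact absurd (congrFun h (Sum.inr ())) hne.symm
    · simp only [cond_true] at h
      have h1 : α x.1 = α x'.1 := funext fun i => congrFun h (Sum.inl (Sum.inr i))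
      have h2 : α y.1 = α y'.1 := funext fun i => congrFun h (Sum.inl (Sum.inl i))
      rw [Subtype.ext (hα h1), Subtype.ext (hα h2)]
  · rintro ⟨⟨x, y⟩, b⟩ ⟨⟨x', y'⟩, b'⟩ ⟨hb, h1, h2⟩ i
    simp only at h1 h2 hb
    cases b <;> cases b'
    · exact absurd rfl hb
    · rcases i with (i | i) | i
      · exact ha _ _ h1 i
      · exact ha _ _ h2 i
      · exact h₀
    · rcases i with (i | i) | i
      · exact ha _ _ h2 i
      · exact ha _ _ h1 i
      · exact h₀.symm
    · exact absurd rfl hb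

omit [Fintype U] in
theorem box_arcs (S T : Finset U) :
    2 * (pairsIn G S T * pairsIn G S T) ≤ (arcs (box G S T)).card := by
  classical
  set P := (S ×ˢ T).filter fun p => G.Adj p.1 p.2 with hP
  have h2 : 2 * (pairsIn G S T * pairsIn G S T) =
      Fintype.card (Bool × ({p // p ∈ P} × {p // p ∈ P})) := by
    simp only [Fintype.card_prod, Fintype.card_coe, Fintype.card_bool]
    unfold pairsIn
    rw [hP]
  have hS : ∀ p : {p // p ∈ P}, p.1.1 ∈ S := fun p =>
    (Finset.mem_product.1 (Finset.mem_filter.1 p.2).1).1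
  have hT : ∀ p : {p // p ∈ P}, p.1.2 ∈ T := fun p =>
    (Finset.mem_product.1 (Finset.mem_filter.1 p.2).1).2
  have hadj : ∀ p : {p // p ∈ P}, G.Adj p.1.1 p.1.2 := fun p => (Finset.mem_filter.1 p.2).2
  let a : Bool × ({p // p ∈ P} × {p // p ∈ P}) → ({x // x ∈ S} × {y // y ∈ T}) × Bool :=
    fun q => ((⟨q.2.1.1.1, hS _⟩, ⟨q.2.2.1.2, hT _⟩), q.1)
  let b : Bool × ({p // p ∈ P} × {p // p ∈ P}) → ({x // x ∈ S} × {y // y ∈ T}) × Bool :=
    fun q => ((⟨q.2.2.1.1, hS _⟩, ⟨q.2.1.1.2, hT _⟩), !q.1)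
  have hab : ∀ q, (a q, b q) ∈ arcs (box G S T) := by
    intro q
    rw [mem_arcs]
    refine ⟨?_, hadj q.2.1, (hadj q.2.2).symm⟩
    show q.1 ≠ !q.1
    cases q.1 <;> simp
  rw [h2, ← Finset.card_univ]
  refine Finset.card_le_card_of_injOn (fun q => (a q, b q)) (fun q _ => hab q) ?_
  intro q _ q' _ h
  have h1 : a q = a q' := congrArg Prod.fst h
  have h3 : b q = b q' := congrArg Prod.snd h
  have e1 : q.1 = q'.1 := congrArg Prod.snd h1
  have e2 : q.2.1.1.1 = q'.2.1.1.1 := congrArg (fun t => t.1.1.1) h1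
  have e3 : q.2.2.1.2 = q'.2.2.1.2 := congrArg (fun t => t.1.2.1) h1
  have e4 : q.2.2.1.1 = q'.2.2.1.1 := congrArg (fun t => t.1.1.1) h3
  have e5 : q.2.1.1.2 = q'.2.1.1.2 := congrArg (fun t => t.1.2.1) h3
  exact Prod.ext e1 (Prod.ext (Subtype.ext (Prod.ext e2 e5)) (Subtype.ext (Prod.ext e4 e3)))

theorem pairsIn_univ : pairsIn G univ univ = (arcs G).card := by
  classical
  unfold pairsIn arcs
  rw [Finset.univ_product_univ]

/-- the condition on `N`, `ε` -/
theorem upper_of_near {φ v : ℝ} (hφ : 1 < φ) (hv : v ≤ 2 * φ) {U₀ : Type} [Fintype U₀]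
    {G₀ : SimpleGraph U₀} (hM₀ : 0 < (arcs G₀).card) {ε : ℝ} {N : ℕ} (hN : 1 ≤ N)
    (hsub : Sub G₀ N G) (hM : 0 < (arcs G).card)
    (hnear : ∀ (U'' : Type) [Fintype U''] (G'' : SimpleGraph U'') (N'' : ℕ), 1 ≤ N'' →
      Sub G₀ N'' G'' → 0 < (arcs G'').card → ff φ v G'' / N'' ≤ ff φ v G / N + ε)
    {η : ℝ} (hη : 2 * N * ε + ε + (φ - 1) * Real.log (arcs G₀).card + (2 * φ - v) * Real.log 2 ≤
      (2 * φ - 2) * (η * Real.log (Fintype.card U))) :
    UpperRegular ((2 * φ - v) / (2 * φ - 2)) η G := by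
  classical
  have hne := card_pos_of_arcs hM
  have hn : (0 : ℝ) < Fintype.card U := by exact_mod_cast Fintype.card_pos
  have hMr : (0 : ℝ) < (arcs G).card := by exact_mod_cast hM
  intro S T
  rw [pairsIn_univ]
  rcases Nat.eq_zero_or_pos (pairsIn G S T) with h0 | hpos
  · rw [h0, Nat.cast_zero]
    positivity
  have hp : (0 : ℝ) < pairsIn G S T := by exact_mod_cast hpos
  have hST : 0 < S.card ∧ 0 < T.card := by
    obtain ⟨p, hp⟩ := Finset.card_pos.1 hpos
    have := Finset.mem_product.1 (Finset.mem_filter.1 hp).1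
    exact ⟨Finset.card_pos.2 ⟨_, this.1⟩, Finset.card_pos.2 ⟨_, this.2⟩⟩
  have hS : (0 : ℝ) < S.card := by exact_mod_cast hST.1
  have hT : (0 : ℝ) < T.card := by exact_mod_cast hST.2
  obtain ⟨⟨x₀, y₀⟩, h₀⟩ := Finset.card_pos.1 hM₀
  have hbox := box_arcs (G := G) S T
  have hboxpos : 0 < (arcs (box G S T)).card := lt_of_lt_of_le (by positivity) hbox
  have h1 := hnear _ (box G S T) (2 * N + 1) (by omega) (box_sub hsub (mem_arcs.1 h₀)) hboxpos
  have hNr : (0 : ℝ) < N := by exact_mod_cast hN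
  have hcard : Fintype.card (({x // x ∈ S} × {y // y ∈ T}) × Bool) = S.card * T.card * 2 := by
    rw [Fintype.card_prod, Fintype.card_prod, Fintype.card_coe, Fintype.card_coe,
      Fintype.card_bool]
  -- lower bound for the box
  have h2 : (φ - 1) * (Real.log 2 + 2 * Real.log (pairsIn G S T)) -
      (2 * φ - v) * (Real.log S.card + Real.log T.card + Real.log 2) ≤ ff φ v (box G S T) := by
    unfold ff
    rw [hcard]
    push_cast
    rw [Real.log_mul (by positivity) (by norm_num), Real.log_mul hS.ne' hT.ne']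
    have h3 : Real.log 2 + 2 * Real.log (pairsIn G S T) ≤ Real.log (arcs (box G S T)).card := by
      have h4 : (2 : ℝ) * ((pairsIn G S T : ℝ) * pairsIn G S T) ≤ (arcs (box G S T)).card := by
        exact_mod_cast hbox
      have h5 := Real.log_le_log (by positivity) h4
      rw [Real.log_mul (by norm_num) (by positivity), Real.log_mul hp.ne' hp.ne'] at h5
      linarith
    have := mul_le_mul_of_nonneg_left h3 (show 0 ≤ φ - 1 by linarith)
    linarith
  have h3 : ff φ v G / N ≤ (φ - 1) * Real.log (arcs G₀).card := by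
    rw [div_le_iff₀ hNr, mul_comm]
    exact ff_le hφ hv hsub hM
  have h4 : ff φ v (box G S T) ≤ 2 * ff φ v G + (φ - 1) * Real.log (arcs G₀).card +
      (2 * N + 1) * ε := by
    rw [div_le_iff₀ (by positivity)] at h1
    push_cast at h1
    have h5 : ff φ v G / N * N = ff φ v G := div_mul_cancel₀ _ hNr.ne'
    nlinarith
  -- logarithms
  have hlog2 : 0 < Real.log 2 := Real.log_pos (by norm_num)
  have h5 : Real.log (pairsIn G S T) ≤ η * Real.log (Fintype.card U) + Real.log (arcs G).card +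
      (2 * φ - v) / (2 * φ - 2) * (Real.log S.card + Real.log T.card -
        2 * Real.log (Fintype.card U)) := by
    have hφ2 : 0 < 2 * φ - 2 := by linarith
    have h6 : (2 * φ - 2) * Real.log (pairsIn G S T) ≤
        (2 * φ - 2) * (η * Real.log (Fintype.card U)) + (2 * φ - 2) * Real.log (arcs G).card +
        (2 * φ - v) * (Real.log S.card + Real.log T.card - 2 * Real.log (Fintype.card U)) := by
      have h7 := h2.trans h4
      unfold ff at h7
      have : 0 ≤ (φ - 1) * Real.log 2 := mul_nonneg (by linarith) hlog2.le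
      linarith
    rw [← mul_le_mul_iff_right₀ hφ2]
    refine h6.trans (le_of_eq ?_)
    rw [mul_add, mul_add, ← mul_assoc (2 * φ - 2) ((2 * φ - v) / (2 * φ - 2)),
      mul_div_cancel₀ _ hφ2.ne']
  have h6 := Real.exp_le_exp.2 h5
  rw [Real.exp_log hp] at h6
  refine h6.trans (le_of_eq ?_)
  rw [Real.exp_add, Real.exp_add, Real.exp_log hMr, Real.rpow_def_of_pos hn,
    Real.rpow_def_of_pos (by positivity), Real.log_div (by positivity) (by positivity),
    Real.log_mul hS.ne' hT.ne', Real.log_pow]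
  push_cast
  congr 2
  · rw [mul_comm η]
  · rw [mul_comm]

end Vale.Agent.P050.H868
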